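import Mathlib

/-!
# Dvoretzky–Rogers factorisation (weak form)
-/

set_option autoImplicit false

namespace Crest.Agent.R254

open Matrix
open scoped RealInnerProductSpace

/-- The map `2 - (projection onto the span of x)` has determinant `2 ^ n / 2 ^ j`. -/
lemma dr_exists_Q {n j : ℕ} (x : Fin j → EuclideanSpace ℝ (Fin n)) (hx : Orthonormal ℝ x) :
    ∃ Q : EuclideanSpace ℝ (Fin n) →ₗ[ℝ] EuclideanSpace ℝ (Fin n),
      (∀ a, Q a = a + (a - ∑ i, ⟪x i, a⟫ • x i)) ∧ LinearMap.det Q = 2 ^ n * (1 / 2) ^ j := by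
  let X : Matrix (Fin n) (Fin j) ℝ := Matrix.of fun s i => x i s
  have hXX : Xᵀ * X = 1 := by
    ext i i'
    have := orthonormal_iff_ite.1 hx i i'
    rw [Matrix.one_apply, ← this, Matrix.mul_apply, PiLp.inner_apply]
    refine Finset.sum_congr rfl fun s _ => ?_
    simp [X, mul_comm]
  refine ⟨Matrix.toLpLin 2 2 ((2 : ℝ) • (1 - X * ((1 / 2 : ℝ) • Xᵀ))), fun a => ?_, ?_⟩
  · ext s
    simp only [Matrix.toLpLin_apply, Matrix.smul_mulVec, Matrix.sub_mulVec, Matrix.one_mulVec,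
      ← Matrix.mulVec_mulVec, Matrix.mulVec_smul]
    have h1 : ∀ i, (Xᵀ *ᵥ a.ofLp) i = ⟪x i, a⟫ := by
      intro i
      rw [PiLp.inner_apply]
      simp [X, Matrix.mulVec, dotProduct, mul_comm]
    have h2 : (X *ᵥ (Xᵀ *ᵥ a.ofLp)) s = ∑ i, ⟪x i, a⟫ * x i s := by
      rw [Matrix.mulVec, dotProduct]
      refine Finset.sum_congr rfl fun i _ => ?_
      rw [h1]; simp [X, mul_comm]
    simp only [Pi.smul_apply, Pi.sub_apply, smul_eq_mul, h2, PiLp.add_apply, PiLp.sub_apply,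
      WithLp.ofLp_sum, Finset.sum_apply, PiLp.smul_apply]
    ring
  · rw [LinearMap.det_toLpLin, Matrix.det_smul, Matrix.det_one_sub_mul_comm, Matrix.smul_mul, hXX]
    have : (1 : Matrix (Fin j) (Fin j) ℝ) - (1 / 2 : ℝ) • 1 = (1 / 2 : ℝ) • 1 := by
      module
    rw [this, Matrix.det_smul]
    simp

lemma dr_john {B : Type*} [NormedAddCommGroup B] [NormedSpace ℝ B] {n : ℕ}
    (J : EuclideanSpace ℝ (Fin n) →ₗ[ℝ] B) (hJ : Function.Injective J) :
    ∃ A : EuclideanSpace ℝ (Fin n) →ₗ[ℝ] EuclideanSpace ℝ (Fin n),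
      (∀ a, ‖J (A a)‖ ≤ ‖a‖) ∧ LinearMap.det A ≠ 0 ∧
      ∀ A' : EuclideanSpace ℝ (Fin n) →ₗ[ℝ] EuclideanSpace ℝ (Fin n), (∀ a, ‖J (A' a)‖ ≤ ‖a‖) →
        |LinearMap.det A'| ≤ |LinearMap.det A| := by
  obtain ⟨K, -, hK⟩ := J.exists_antilipschitzWith (LinearMap.ker_eq_bot.2 hJ)
  let J' := LinearMap.toContinuousLinearMap J
  let S : Set (EuclideanSpace ℝ (Fin n) →L[ℝ] EuclideanSpace ℝ (Fin n)) :=
    {A | ∀ a, ‖J (A a)‖ ≤ ‖a‖}
  haveI : ProperSpace (EuclideanSpace ℝ (Fin n) →L[ℝ] EuclideanSpace ℝ (Fin n)) :=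
    FiniteDimensional.proper ℝ _
  have hcl : IsClosed S := by
    simp only [S, Set.setOf_forall]
    refine isClosed_iInter fun a => isClosed_le ?_ continuous_const
    exact (J'.continuous.comp (ContinuousLinearMap.apply ℝ _ a).continuous).norm
  have hbd : Bornology.IsBounded S := by
    refine (Metric.isBounded_closedBall (x := 0) (r := K)).subset fun A hA => ?_
    rw [mem_closedBall_zero_iff]
    refine ContinuousLinearMap.opNorm_le_bound _ K.2 fun a => ?_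
    have h1 := hK.le_mul_norm (map_zero J) (A a)
    exact h1.trans (by gcongr; exact hA a)
  have hc : (0 : ℝ) < (‖J'‖ + 1)⁻¹ := by positivity
  have h0 : ((‖J'‖ + 1)⁻¹ • ContinuousLinearMap.id ℝ (EuclideanSpace ℝ (Fin n))) ∈ S := by
    intro a
    have h1 : ‖J a‖ ≤ ‖J'‖ * ‖a‖ := J'.le_opNorm a
    simp only [ContinuousLinearMap.smul_apply, ContinuousLinearMap.id_apply, map_smul, norm_smul,
      Real.norm_eq_abs, abs_of_pos hc]
    rw [inv_mul_le_iff₀ (by positivity)]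
    nlinarith [norm_nonneg a]
  obtain ⟨A, hA, hmax⟩ := (Metric.isCompact_of_isClosed_isBounded hcl hbd).exists_isMaxOn ⟨_, h0⟩
    (f := fun A => |ContinuousLinearMap.det A|)
    (ContinuousLinearMap.continuous_det.abs.continuousOn)
  refine ⟨A, hA, ?_, fun A' hA' => hmax (a := LinearMap.toContinuousLinearMap A') hA'⟩
  have h1 : |ContinuousLinearMap.det ((‖J'‖ + 1)⁻¹ •
      ContinuousLinearMap.id ℝ (EuclideanSpace ℝ (Fin n)))| ≤ |ContinuousLinearMap.det A| := hmax h0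
  have h2 : ContinuousLinearMap.det ((‖J'‖ + 1)⁻¹ •
      ContinuousLinearMap.id ℝ (EuclideanSpace ℝ (Fin n))) ≠ 0 := by
    have : ContinuousLinearMap.det ((‖J'‖ + 1)⁻¹ •
        ContinuousLinearMap.id ℝ (EuclideanSpace ℝ (Fin n))) =
        LinearMap.det ((‖J'‖ + 1)⁻¹ • (LinearMap.id : EuclideanSpace ℝ (Fin n) →ₗ[ℝ] _)) := rfl
    rw [this, LinearMap.det_smul, LinearMap.det_id, mul_one]
    positivity
  exact abs_pos.1 ((abs_pos.2 h2).trans_le h1)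

lemma dr_step {B : Type*} [NormedAddCommGroup B] [NormedSpace ℝ B] {n j : ℕ} {θ : ℝ} (hθ : 0 ≤ θ)
    (J : EuclideanSpace ℝ (Fin n) →ₗ[ℝ] B)
    (A : EuclideanSpace ℝ (Fin n) →ₗ[ℝ] EuclideanSpace ℝ (Fin n))
    (hA : ∀ a, ‖J (A a)‖ ≤ ‖a‖) (hd : LinearMap.det A ≠ 0)
    (hmax : ∀ A' : EuclideanSpace ℝ (Fin n) →ₗ[ℝ] EuclideanSpace ℝ (Fin n),
      (∀ a, ‖J (A' a)‖ ≤ ‖a‖) → |LinearMap.det A'| ≤ |LinearMap.det A|)
    (hn : (2 : ℝ) ^ j < (2 / (1 + θ)) ^ n)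
    (x : Fin j → EuclideanSpace ℝ (Fin n)) (hx : Orthonormal ℝ x) :
    ∃ y : EuclideanSpace ℝ (Fin n), ‖y‖ = 1 ∧ (∀ i, ⟪y, x i⟫ = 0) ∧ θ ≤ ‖J (A y)‖ := by
  by_contra hcon
  push Not at hcon
  have hsmall : ∀ y : EuclideanSpace ℝ (Fin n), (∀ i, ⟪y, x i⟫ = 0) → ‖J (A y)‖ ≤ θ * ‖y‖ := by
    intro y hy
    rcases eq_or_ne y 0 with rfl | hy0
    · simp
    have hn0 : 0 < ‖y‖ := norm_pos_iff.2 hy0
    have := hcon (‖y‖⁻¹ • y) (by rw [norm_smul, norm_inv, norm_norm, inv_mul_cancel₀ hn0.ne'])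
      (fun i => by rw [real_inner_smul_left, hy, mul_zero])
    rw [map_smul, map_smul, norm_smul, norm_inv, norm_norm, inv_mul_lt_iff₀ hn0] at this
    linarith
  obtain ⟨Q, hQ, hdet⟩ := dr_exists_Q x hx
  have h1θ : 0 < 1 + θ := by linarith
  have key := hmax ((1 + θ)⁻¹ • (A ∘ₗ Q)) fun a => by
    set p := a - ∑ i, ⟪x i, a⟫ • x i with hp
    have hpx : ∀ i, ⟪p, x i⟫ = 0 := by
      intro i
      rw [hp, inner_sub_left, hx.inner_left_fintype, real_inner_comm]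
      simp
    have hpa : ‖p‖ ≤ ‖a‖ := by
      have h1 : ⟪p, p⟫ = ⟪p, a⟫ := by
        conv_lhs => rw [hp, inner_sub_right, inner_sum, ← hp]
        simp [inner_smul_right, hpx]
      have h2 := real_inner_le_norm p a
      rw [← h1, real_inner_self_eq_norm_mul_norm] at h2
      rcases eq_or_lt_of_le (norm_nonneg p) with h | h
      · rw [← h]; exact norm_nonneg _
      · exact le_of_mul_le_mul_left h2 h
    simp only [LinearMap.smul_apply, LinearMap.comp_apply, hQ, ← hp, map_add, map_smul, norm_smul,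
      Real.norm_eq_abs, abs_of_pos (inv_pos.2 h1θ)]
    rw [inv_mul_le_iff₀ h1θ]
    calc _ ≤ ‖J (A a)‖ + ‖J (A p)‖ := norm_add_le _ _
      _ ≤ ‖a‖ + θ * ‖a‖ := add_le_add (hA a) ((hsmall p hpx).trans (by gcongr))
      _ = _ := by ring
  rw [LinearMap.det_smul, LinearMap.det_comp, hdet, finrank_euclideanSpace, Fintype.card_fin,
    abs_mul, abs_mul, abs_of_pos (a := (1 + θ)⁻¹ ^ n) (by positivity),
    abs_of_pos (a := (2 : ℝ) ^ n * (1 / 2) ^ j) (by positivity)] at key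
  have hpos : 0 < |LinearMap.det A| := abs_pos.2 hd
  have h2 : (1 + θ)⁻¹ ^ n * (2 ^ n * (1 / 2) ^ j) ≤ 1 := by
    refine le_of_mul_le_mul_left ?_ hpos
    linarith
  have h3 : (1 + θ)⁻¹ ^ n * (2 ^ n * (1 / 2) ^ j) = (2 / (1 + θ)) ^ n / 2 ^ j := by
    rw [div_pow, div_pow, inv_pow, one_pow]; field_simp
  rw [h3, div_le_one (by positivity)] at h2
  linarith

/-- In an infinite-dimensional real normed space, for every finite index type there is a linear map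
`T` from Euclidean space with `‖a‖_∞ / 2 ≤ ‖T a‖ ≤ ‖a‖₂`. -/
theorem dvoretzky_rogers (B : Type*) [NormedAddCommGroup B] [NormedSpace ℝ B]
    (hB : ¬ FiniteDimensional ℝ B) (ι : Type) [Fintype ι] :
    ∃ T : EuclideanSpace ℝ ι →ₗ[ℝ] B, (∀ a, ‖T a‖ ≤ ‖a‖) ∧ ∀ a i, |a i| ≤ 2 * ‖T a‖ := by
  classical
  set k := Fintype.card ι with hk
  set lam : ℝ := 1 / (2 * ((k : ℝ) + 1)) with hlam
  have hk0 : (0 : ℝ) ≤ k := Nat.cast_nonneg _
  have hl0 : 0 < lam := by positivity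
  have hlk : lam * (k + 1) = 1 / 2 := by rw [hlam]; field_simp
  have hl1 : lam ≤ 1 / 2 := by nlinarith
  set θ : ℝ := 1 - lam / 4 with hθ
  have hθ0 : 0 ≤ θ := by linarith
  obtain ⟨n, hn⟩ := pow_unbounded_of_one_lt ((2 : ℝ) ^ k)
    (show 1 < 2 / (1 + θ) by rw [lt_div_iff₀ (by linarith)]; linarith)
  have hrank : (n : Cardinal) ≤ Module.rank ℝ B := by
    have : ¬ Module.rank ℝ B < Cardinal.aleph0 := fun h => hB (Module.rank_lt_aleph0_iff.1 h)
    exact (Cardinal.natCast_lt_aleph0).le.trans (not_lt.1 this)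
  obtain ⟨J0, hJ0⟩ := Module.le_rank_iff_exists_linearMap.1 hrank
  let J : EuclideanSpace ℝ (Fin n) →ₗ[ℝ] B :=
    J0 ∘ₗ (WithLp.linearEquiv 2 ℝ (Fin n → ℝ)).toLinearMap
  have hJ : Function.Injective J := hJ0.comp (WithLp.linearEquiv 2 ℝ (Fin n → ℝ)).injective
  obtain ⟨A, hA, hd, hmax⟩ := dr_john J hJ
  have hind : ∀ j, j ≤ k → ∃ x : Fin j → EuclideanSpace ℝ (Fin n), Orthonormal ℝ x ∧
      ∀ i, θ ≤ ‖J (A (x i))‖ := by
    intro j
    induction j with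
    | zero => exact fun _ => ⟨Fin.elim0, orthonormal_iff_ite.2 fun i => i.elim0, fun i => i.elim0⟩
    | succ j ih =>
      intro hj
      obtain ⟨x, hx, hx'⟩ := ih (by omega)
      obtain ⟨y, hy1, hy2, hy3⟩ := dr_step hθ0 J A hA hd hmax
        ((pow_le_pow_right₀ one_le_two (by omega : j ≤ k)).trans_lt hn) x hx
      refine ⟨Matrix.vecCons y x, orthonormal_vecCons_iff.2 ⟨hy1, hy2, hx⟩, fun i => ?_⟩
      refine Fin.cases ?_ (fun i => ?_) i
      · simpa using hy3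
      · simpa using hx' i
  obtain ⟨x0, hx0, hx0'⟩ := hind k le_rfl
  let x : ι → EuclideanSpace ℝ (Fin n) := x0 ∘ Fintype.equivFin ι
  have hx : Orthonormal ℝ x := hx0.comp _ (Fintype.equivFin ι).injective
  have hx' : ∀ i, θ ≤ ‖J (A (x i))‖ := fun i => hx0' _
  let V : EuclideanSpace ℝ ι →ₗ[ℝ] EuclideanSpace ℝ (Fin n) :=
    Fintype.linearCombination ℝ x ∘ₗ (WithLp.linearEquiv 2 ℝ (ι → ℝ)).toLinearMap
  have hV : ∀ a, V a = ∑ i, a i • x i := fun a => by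
    simp [V, Fintype.linearCombination_apply]
  have hin : ∀ a i, ⟪x i, V a⟫ = a i := fun a i => by rw [hV, hx.inner_right_fintype]
  have hVn : ∀ a, ‖V a‖ ^ 2 = ∑ i, a i ^ 2 := by
    intro a
    rw [← real_inner_self_eq_norm_sq]
    conv_lhs => rw [hV a, sum_inner, ← hV a]
    refine Finset.sum_congr rfl fun i _ => ?_
    rw [real_inner_smul_left, hin, sq]
  have hVn' : ∀ a, ‖V a‖ = ‖a‖ := by
    intro a
    refine (sq_eq_sq₀ (norm_nonneg _) (norm_nonneg _)).1 ?_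
    rw [hVn, EuclideanSpace.real_norm_sq_eq]
  refine ⟨J ∘ₗ A ∘ₗ V, fun a => (hA (V a)).trans (hVn' a).le, fun a i => ?_⟩
  obtain ⟨i₀, -, hi₀⟩ := Finset.exists_max_image Finset.univ (fun i => |a i|) ⟨i, Finset.mem_univ i⟩
  refine (hi₀ i (Finset.mem_univ i)).trans ?_
  set m := |a i₀| with hm
  have hm0 : 0 ≤ m := abs_nonneg _
  have hm2 : a i₀ ^ 2 = m ^ 2 := (sq_abs _).symm
  have h1 : ‖V a‖ ^ 2 ≤ k * m ^ 2 := by
    rw [hVn]
    calc ∑ i, a i ^ 2 ≤ ∑ _i : ι, m ^ 2 := Finset.sum_le_sum fun i _ => by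
          rw [← sq_abs]; gcongr; exact hi₀ i (Finset.mem_univ i)
      _ = k * m ^ 2 := by simp [hk]
  have h2 : ‖a i₀ • x i₀ - lam • V a‖ ≤ (1 - 3 * lam / 4) * m := by
    refine (pow_le_pow_iff_left₀ (norm_nonneg _) (mul_nonneg (by linarith) hm0) two_ne_zero).1 ?_
    rw [norm_sub_sq_real, real_inner_smul_left, real_inner_smul_right, hin, norm_smul, norm_smul,
      hx.1 i₀, Real.norm_eq_abs, Real.norm_eq_abs, abs_of_pos hl0, ← hm, mul_pow lam]
    have h3 : a i₀ * (lam * a i₀) = lam * m ^ 2 := by rw [← hm2]; ring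
    have h4 : lam ^ 2 * ‖V a‖ ^ 2 ≤ lam ^ 2 * (k * m ^ 2) := by gcongr
    have h5 : lam ^ 2 * (k * m ^ 2) ≤ lam / 2 * m ^ 2 := by
      have : lam * k ≤ 1 / 2 := by linarith
      calc lam ^ 2 * (k * m ^ 2) = (lam * k) * (lam * m ^ 2) := by ring
        _ ≤ 1 / 2 * (lam * m ^ 2) := by gcongr
        _ = _ := by ring
    rw [h3]
    nlinarith [sq_nonneg (lam * m)]
  have h3 : θ * m ≤ lam * ‖J (A (V a))‖ + (1 - 3 * lam / 4) * m := by
    calc θ * m ≤ ‖J (A (x i₀))‖ * m := by gcongr; exact hx' i₀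
      _ = ‖lam • J (A (V a)) + J (A (a i₀ • x i₀ - lam • V a))‖ := by
          simp only [map_sub, map_smul, add_sub_cancel, norm_smul, Real.norm_eq_abs]
          ring
      _ ≤ ‖lam • J (A (V a))‖ + ‖J (A (a i₀ • x i₀ - lam • V a))‖ := norm_add_le _ _
      _ ≤ _ := by
          rw [norm_smul, Real.norm_eq_abs, abs_of_pos hl0]
          exact add_le_add le_rfl ((hA _).trans h2)
  have h4 : lam * m ≤ lam * (2 * ‖J (A (V a))‖) := by rw [hθ] at h3; linarith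
  exact le_of_mul_le_mul_left h4 hl0

end Crest.Agent.R254
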