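import Mathlib
import Crest.Prelude.Def_Doubling

/-!
# Row 254 (S0392): definitions

A finite "rows and columns" tower in Euclidean space which is doubling with a universal constant but
has no low-distortion map to a space with bounded packing number.
-/

set_option autoImplicit false

namespace Crest.Agent.R254

open Finset

/-- No `K` points of `E` have all their pairwise distances in `[ρ, D ρ]`. -/
def NoPack (E : Type*) [PseudoMetricSpace E] (K : ℕ) (D : ℝ) : Prop :=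
  ∀ (p : Fin K → E) (ρ : ℝ), 0 < ρ →
    ¬ ∀ a b, a ≠ b → ρ ≤ dist (p a) (p b) ∧ dist (p a) (p b) ≤ D * ρ

/-- At every scale `ρ` there is a labelling such that two points with the same label which are
`8 ρ`-close in the sup norm are `ρ`-close in the Euclidean norm. -/
def LabelDoubling (Lab : Type) {Ω ι : Type*} [Fintype ι] (Φ : Ω → EuclideanSpace ℝ ι) : Prop :=
  ∀ ρ : ℝ, 0 < ρ → ∃ lab : Ω → Lab,
    ∀ ω ω', (∀ i, |Φ ω i - Φ ω' i| ≤ 8 * ρ) → lab ω = lab ω' → ‖Φ ω - Φ ω'‖ ≤ ρ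

/-- `Φ` cannot be shadowed in an inner product space without `K`-point packings. -/
def NotShadowed (K L : ℕ) {Ω ι : Type*} [Fintype ι] (Φ : Ω → EuclideanSpace ℝ ι) : Prop :=
  ∀ (E : Type) [NormedAddCommGroup E] [InnerProductSpace ℝ E], NoPack E K (16 * L) →
    ∀ f : Ω → E, (∀ ω ω', ‖f ω - f ω'‖ ≤ L * ‖Φ ω - Φ ω'‖) →
      (∀ ω ω' i, |Φ ω i - Φ ω' i| ≤ ‖f ω - f ω'‖) → False

/-- The energy of `F` along the shift `h`. -/
noncomputable def En {G E : Type*} [AddCommGroup G] [Fintype G] [NormedAddCommGroup E]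
    (F : G → E) (h : G) : ℝ :=
  ∑ g, ‖F (g + h) - F g‖ ^ 2

/-- Parameters of the tower. -/
structure Par where
  K : ℕ
  lam : ℕ
  R : ℕ
  m : ℕ
  N : ℕ

namespace Par

variable (P : Par)

/-- period of `s` -/
def M : ℕ := P.R ^ (P.N * (P.m + 1))
/-- period of each `t c` -/
def W : ℕ := P.R ^ P.m
/-- physical spacing of `t c` -/
def tau (c : ℕ) : ℕ := P.R ^ (c * (P.m + 1))
/-- height of level `(c, i)` -/
def r (c i : ℕ) : ℕ := P.R ^ (c * (P.m + 1) + i)
/-- width (in `s`) of one column of level `(c, i)` -/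
def cw (c i : ℕ) : ℕ := P.r c i * P.lam ^ (i + 1)

/-- The size conditions on the parameters. -/
structure Good (L : ℕ) : Prop where
  hK : 1 ≤ P.K
  hL : 1 ≤ L
  hlam : 800000 * L ^ 2 * P.K ^ 6 ≤ P.lam
  hm : 80000 * L ^ 2 * P.K ^ 6 * P.lam < P.m
  hN : 400000 * L ^ 2 * P.K ^ 6 * P.lam * P.lam ^ (2 * P.m) < P.N
  hdvd : P.K * P.lam ^ P.m ∣ P.R
  hR1 : 200 * P.K * L * (P.K + 2 * P.m) ≤ P.R
  hR2 : 600 * P.K ^ 2 * L * P.lam ^ P.m ≤ P.R
  hR3 : 2880000 * P.m * L ^ 2 * P.K ^ 6 * P.lam * P.lam ^ (2 * P.m) ≤ P.R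
  hR4 : 100 * P.lam * (P.N + 1) * (P.m + 1) ≤ P.R

/-- coordinates of the ambient Euclidean space -/
abbrev Idx : Type := Unit ⊕ Fin P.N ⊕ (Fin P.N × Fin P.m × Fin P.K) ⊕ (Fin P.N × Fin P.m)

end Par

/-- distance from `x` to `n ℤ` -/
def tent (n : ℕ) (x : ℤ) : ℤ := min (x % n) (n - x % n)

/-- the `v`-th coordinate of the unit vector `e_(a mod K)` -/
def uvec (K : ℕ) (a : ℤ) (v : Fin K) : ℝ := if a % K = (v : ℕ) then 1 else 0

/-- the piecewise linear path through `e_0, e_1, …` taking time `w` for each step -/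
noncomputable def upath (K w : ℕ) (s : ℤ) (v : Fin K) : ℝ :=
  (1 - ((s % w : ℤ) : ℝ) / w) * uvec K (s / w) v + ((s % w : ℤ) : ℝ) / w * uvec K (s / w + 1) v

namespace Par

variable (P : Par)

/-- Coordinates of the point with parameters `s, t, σ`. Level `(c, i)` is a column when
`σ c ≤ i` and a row otherwise. -/
noncomputable def coord (s : ℤ) (t : Fin P.N → ℤ) (σ : Fin P.N → ℕ) : P.Idx → ℝ
  | Sum.inl _ => (tent P.M s : ℝ)
  | Sum.inr (Sum.inl c) => (P.tau c : ℝ) * (tent P.W (t c) : ℝ)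
  | Sum.inr (Sum.inr (Sum.inl (c, i, v))) =>
      if σ c ≤ i then (P.r c i : ℝ) * upath P.K (P.cw c i) s v
      else (P.r c i : ℝ) * uvec P.K (t c / ((P.R ^ (i : ℕ) : ℕ) : ℤ)) v
  | Sum.inr (Sum.inr (Sum.inr (c, i))) => if σ c ≤ i then 0 else (P.r c i : ℝ) / P.lam

/-- The point with parameters `s, t, σ`. -/
noncomputable def Phi (s : ℤ) (t : Fin P.N → ℤ) (σ : Fin P.N → ℕ) : EuclideanSpace ℝ P.Idx :=
  WithLp.toLp 2 (P.coord s t σ)

/-- Sum of the squared slopes of the column levels. -/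
noncomputable def cost (σ : Fin P.N → ℕ) : ℝ :=
  ∑ c : Fin P.N, ∑ i : Fin P.m, if σ c ≤ i then (1 / (P.lam : ℝ) ^ ((i : ℕ) + 1)) ^ 2 else 0

/-- The parameter space. -/
abbrev Om : Type := ℤ × (Fin P.N → ℤ) × {σ : Fin P.N → ℕ // P.cost σ ≤ 2}

/-- The tower as a map on the parameter space. -/
noncomputable def PhiOm (ω : P.Om) : EuclideanSpace ℝ P.Idx := P.Phi ω.1 ω.2.1 ω.2.2.1

end Par

/-- The labels. -/
abbrev Lab : Type := Fin 1000 × Bool × Fin 1000 × Bool × Bool × Fin 1000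

end Crest.Agent.R254
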