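import Crest.Agent.R254.Defs

/-!
# Geometry of the tower: parameters, periodicity, cost
-/

set_option autoImplicit false

namespace Crest.Agent.R254

lemma GeomA_div_congr (K w : ℕ) (hw : 0 < w) {s s' : ℤ} (h : s ≡ s' [ZMOD (K * w : ℕ)]) :
    s % w = s' % w ∧ s / w ≡ s' / w [ZMOD K] := by
  obtain ⟨k, hk⟩ := h.dvd
  have hw' : (w : ℤ) ≠ 0 := by exact_mod_cast hw.ne'
  have e : s' = s + (K * k) * w := by push_cast at hk; linear_combination hk
  refine ⟨by rw [e, Int.add_mul_emod_self_right], ?_⟩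
  rw [e, Int.add_mul_ediv_right _ _ hw']
  exact (Int.modEq_iff_dvd.mpr ⟨k, by ring⟩)

lemma GeomA_uvec_congr (K : ℕ) {a a' : ℤ} (h : a ≡ a' [ZMOD K]) (v : Fin K) :
    uvec K a v = uvec K a' v := by
  unfold uvec
  rw [show a % K = a' % K from h]

lemma GeomA_upath_congr (K w : ℕ) (hw : 0 < w) {s s' : ℤ} (h : s ≡ s' [ZMOD (K * w : ℕ)])
    (v : Fin K) : upath K w s v = upath K w s' v := by
  obtain ⟨h1, h2⟩ := GeomA_div_congr K w hw h
  unfold upath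
  rw [h1, GeomA_uvec_congr K h2, GeomA_uvec_congr K (h2.add_right 1)]

lemma GeomA_tent_congr (n : ℕ) {x y : ℤ} (h : x ≡ y [ZMOD n]) : tent n x = tent n y := by
  unfold tent
  rw [show x % n = y % n from h]

lemma GeomA_geom (x : ℝ) (hx0 : 0 ≤ x) (hx : x ≤ 1 / 2) (j m : ℕ) :
    ∑ i ∈ Finset.range m, (if j ≤ i then x ^ (i + 1) else 0) ≤ 2 * x ^ (j + 1) := by
  have key : ∀ m, ∑ i ∈ Finset.range m, (if j ≤ i then x ^ (i + 1) else 0) +
      2 * x ^ (max j m + 1) ≤ 2 * x ^ (j + 1) := by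
    intro m
    induction m with
    | zero => simp
    | succ m ih =>
      rw [Finset.sum_range_succ]
      by_cases h : j ≤ m
      · rw [if_pos h]
        rw [max_eq_right h] at ih
        rw [max_eq_right (by omega : j ≤ m + 1), pow_succ x (m + 1)]
        nlinarith [pow_nonneg hx0 (m + 1)]
      · rw [if_neg h]
        rw [max_eq_left (by omega : m ≤ j)] at ih
        rw [max_eq_left (by omega : m + 1 ≤ j)]
        linarith
  have := key m
  linarith [pow_nonneg hx0 (max j m + 1)]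

namespace Par

open Finset

variable {P : Par} {L : ℕ}

lemma GeomA_lam (hP : P.Good L) : 2 ≤ P.lam := by
  have h1 := hP.hlam
  have h2 : 1 ≤ L ^ 2 := Nat.one_le_pow _ _ hP.hL
  have h3 : 1 ≤ P.K ^ 6 := Nat.one_le_pow _ _ hP.hK
  nlinarith

lemma GeomA_R (hP : P.Good L) : 0 < P.R := by
  have h1 := hP.hR4
  have h2 := GeomA_lam hP
  have : 0 < 100 * P.lam * (P.N + 1) * (P.m + 1) := by positivity
  omega

theorem exists_good (K L : ℕ) (hK : 1 ≤ K) (hL : 1 ≤ L) : ∃ P : Par, P.K = K ∧ P.Good L := by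
  obtain ⟨lam, hlam⟩ : ∃ lam, lam = 800000 * L ^ 2 * K ^ 6 := ⟨_, rfl⟩
  obtain ⟨m, hm⟩ : ∃ m, m = 80000 * L ^ 2 * K ^ 6 * lam + 1 := ⟨_, rfl⟩
  obtain ⟨N, hN⟩ : ∃ N, N = 400000 * L ^ 2 * K ^ 6 * lam * lam ^ (2 * m) + 1 := ⟨_, rfl⟩
  obtain ⟨X, hX⟩ : ∃ X, X = 200 * K * L * (K + 2 * m) + 600 * K ^ 2 * L * lam ^ m +
    2880000 * m * L ^ 2 * K ^ 6 * lam * lam ^ (2 * m) + 100 * lam * (N + 1) * (m + 1) := ⟨_, rfl⟩
  have hl0 : 0 < lam := by rw [hlam]; positivity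
  have hXR : X ≤ K * lam ^ m * X := Nat.le_mul_of_pos_left _ (by positivity)
  refine ⟨⟨K, lam, K * lam ^ m * X, m, N⟩, rfl, hK, hL, hlam.ge, ?_, ?_, dvd_mul_right _ _,
    ?_, ?_, ?_, ?_⟩
  · show 80000 * L ^ 2 * K ^ 6 * lam < m
    omega
  · show 400000 * L ^ 2 * K ^ 6 * lam * lam ^ (2 * m) < N
    omega
  · show 200 * K * L * (K + 2 * m) ≤ K * lam ^ m * X
    omega
  · show 600 * K ^ 2 * L * lam ^ m ≤ K * lam ^ m * X
    omega
  · show 2880000 * m * L ^ 2 * K ^ 6 * lam * lam ^ (2 * m) ≤ K * lam ^ m * X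
    omega
  · show 100 * lam * (N + 1) * (m + 1) ≤ K * lam ^ m * X
    omega

theorem Phi_congr (hP : P.Good L) {s s' : ℤ} {t t' : Fin P.N → ℤ} (σ : Fin P.N → ℕ)
    (hs : s ≡ s' [ZMOD P.M]) (ht : ∀ c, t c ≡ t' c [ZMOD P.W]) :
    P.Phi s t σ = P.Phi s' t' σ := by
  have hR := GeomA_R hP
  have hl := GeomA_lam hP
  unfold Phi
  congr 1
  funext x
  rcases x with _ | c | ⟨c, i, v⟩ | ⟨c, i⟩
  · simp only [coord, GeomA_tent_congr _ hs]
  · simp only [coord, GeomA_tent_congr _ (ht c)]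
  · have h1 : P.K * P.cw c i ∣ P.M := by
      have a1 : P.K * P.lam ^ ((i : ℕ) + 1) ∣ P.R :=
        dvd_trans (Nat.mul_dvd_mul_left _ (pow_dvd_pow _ i.2)) hP.hdvd
      have a2 : (c : ℕ) * (P.m + 1) + i + 1 ≤ P.N * (P.m + 1) := by
        have b1 : ((c : ℕ) + 1) * (P.m + 1) ≤ P.N * (P.m + 1) := Nat.mul_le_mul_right _ c.2
        have b2 := i.2
        nlinarith
      calc P.K * P.cw c i = P.R ^ ((c : ℕ) * (P.m + 1) + i) * (P.K * P.lam ^ ((i : ℕ) + 1)) := by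
            unfold cw r; ring
        _ ∣ P.R ^ ((c : ℕ) * (P.m + 1) + i) * P.R := Nat.mul_dvd_mul_left _ a1
        _ = P.R ^ ((c : ℕ) * (P.m + 1) + i + 1) := by ring
        _ ∣ P.M := pow_dvd_pow _ a2
    have h2 : P.K * P.R ^ (i : ℕ) ∣ P.W := by
      have a1 : P.K ∣ P.R := dvd_trans (dvd_mul_right _ _) hP.hdvd
      calc P.K * P.R ^ (i : ℕ) ∣ P.R * P.R ^ (i : ℕ) := Nat.mul_dvd_mul_right a1 _
        _ = P.R ^ ((i : ℕ) + 1) := by ring
        _ ∣ P.W := pow_dvd_pow _ i.2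
    have hw : 0 < P.cw c i := by unfold cw r; positivity
    simp only [coord]
    rw [GeomA_upath_congr P.K _ hw (hs.of_dvd (by exact_mod_cast h1)),
      GeomA_uvec_congr P.K (GeomA_div_congr P.K (P.R ^ (i : ℕ)) (by positivity)
        ((ht c).of_dvd (by exact_mod_cast h2))).2]
  · simp only [coord]

lemma GeomA_Phi_min (s : ℤ) (t : Fin P.N → ℤ) (σ : Fin P.N → ℕ) :
    P.Phi s t σ = P.Phi s t fun c => min (σ c) P.m := by
  have h : ∀ (c : Fin P.N) (i : Fin P.m), min (σ c) P.m ≤ i ↔ σ c ≤ i := by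
    intro c i; have := i.2; omega
  unfold Phi
  congr 1
  funext x
  rcases x with _ | c | ⟨c, i, v⟩ | ⟨c, i⟩ <;> simp only [coord, h]

theorem finite_range (hP : P.Good L) : (Set.range P.PhiOm).Finite := by
  have hR := GeomA_R hP
  have hM : (0 : ℤ) < P.M := by unfold M; positivity
  have hW : (0 : ℤ) < P.W := by unfold W; positivity
  refine Set.Finite.subset (Set.finite_range
    (fun x : Fin P.M × (Fin P.N → Fin P.W) × (Fin P.N → Fin (P.m + 1)) =>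
      P.Phi (x.1 : ℕ) (fun c => (x.2.1 c : ℕ)) fun c => x.2.2 c)) ?_
  rintro _ ⟨⟨s, t, σ⟩, rfl⟩
  have h1 : ∀ (n : ℕ), (0 : ℤ) < n → ∀ x : ℤ, ∃ y : Fin n, ((y : ℕ) : ℤ) ≡ x [ZMOD n] := by
    intro n hn x
    have a1 := Int.emod_nonneg x hn.ne'
    have a2 := Int.emod_lt_of_pos x hn
    refine ⟨⟨(x % n).toNat, by omega⟩, ?_⟩
    simp only [Int.toNat_of_nonneg a1]
    exact Int.mod_modEq x n
  obtain ⟨s', hs'⟩ := h1 _ hM s
  choose t' ht' using fun c => h1 _ hW (t c)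
  refine ⟨(s', t', fun c => ⟨min (σ.1 c) P.m, by omega⟩), ?_⟩
  simp only [PhiOm]
  rw [Phi_congr hP _ hs' ht', GeomA_Phi_min s t σ.1]

theorem cost_nonneg (σ : Fin P.N → ℕ) : 0 ≤ P.cost σ := by
  unfold cost
  refine Finset.sum_nonneg fun c _ => Finset.sum_nonneg fun i _ => ?_
  split_ifs
  · positivity
  · exact le_rfl

theorem cost_default : P.cost (fun _ => P.m) = 0 := by
  unfold cost
  refine Finset.sum_eq_zero fun c _ => Finset.sum_eq_zero fun i _ => ?_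
  rw [if_neg (not_le.mpr i.2)]

theorem cost_update (hP : P.Good L) (σ : Fin P.N → ℕ) (c : Fin P.N) (hc : σ c = P.m) (j : ℕ) :
    P.cost (Function.update σ c j) ≤ P.cost σ + 2 * (1 / (P.lam : ℝ) ^ (j + 1)) ^ 2 := by
  have hl : (2 : ℝ) ≤ P.lam := by exact_mod_cast GeomA_lam hP
  have e : ∀ k : ℕ, (1 / (P.lam : ℝ) ^ k) ^ 2 = (1 / (P.lam : ℝ) ^ 2) ^ k := by
    intro k; rw [one_div, one_div, ← inv_pow, ← inv_pow, ← pow_mul, ← pow_mul, mul_comm]
  unfold cost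
  rw [← Finset.add_sum_erase _ _ (Finset.mem_univ c), ← Finset.add_sum_erase _ _ (Finset.mem_univ c)]
  have h1 : ∑ x ∈ univ.erase c, ∑ i : Fin P.m,
      (if Function.update σ c j x ≤ i then (1 / (P.lam : ℝ) ^ ((i : ℕ) + 1)) ^ 2 else 0) =
      ∑ x ∈ univ.erase c, ∑ i : Fin P.m,
      (if σ x ≤ i then (1 / (P.lam : ℝ) ^ ((i : ℕ) + 1)) ^ 2 else 0) := by
    refine Finset.sum_congr rfl fun x hx => ?_
    rw [Function.update_of_ne (Finset.mem_erase.mp hx).1]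
  have h2 : 0 ≤ ∑ i : Fin P.m, (if σ c ≤ i then (1 / (P.lam : ℝ) ^ ((i : ℕ) + 1)) ^ 2 else 0) := by
    refine Finset.sum_nonneg fun i _ => ?_
    split_ifs
    · positivity
    · exact le_rfl
  have h3 : ∑ i : Fin P.m, (if Function.update σ c j c ≤ i then
      (1 / (P.lam : ℝ) ^ ((i : ℕ) + 1)) ^ 2 else 0) ≤ 2 * (1 / (P.lam : ℝ) ^ (j + 1)) ^ 2 := by
    rw [Function.update_self]
    simp only [e]
    rw [Fin.sum_univ_eq_sum_range (fun i => if j ≤ i then (1 / (P.lam : ℝ) ^ 2) ^ (i + 1) else 0)]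
    refine GeomA_geom _ (by positivity) ?_ j P.m
    exact one_div_le_one_div_of_le (by norm_num) (by nlinarith)
  rw [h1]
  linarith

end Par

end Crest.Agent.R254
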