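import Crest.Agent.R254.Defs
import Crest.Agent.R254.GeomA

/-!
# The tower is doubling with a universal number of labels
-/

set_option autoImplicit false

namespace Crest.Agent.R254

open Finset

/-- residue mod 1000 -/
def dbl_fm (z : ℤ) : Fin 1000 := ⟨(z % 1000).toNat, by omega⟩

lemma dbl_fm_eq {z z' : ℤ} (h : dbl_fm z = dbl_fm z') (h1 : z - z' < 1000) (h2 : z' - z < 1000) :
    z = z' := by
  have := congrArg Fin.val h
  simp only [dbl_fm] at this
  omega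

lemma dbl_floor {η a a' : ℝ} (hη : 0 < η) (h : |a - a'| ≤ 800 * η)
    (hl : dbl_fm ⌊a / η⌋ = dbl_fm ⌊a' / η⌋) : |a - a'| ≤ η := by
  have h1 : |a / η - a' / η| ≤ 800 := by
    rw [← sub_div, abs_div, abs_of_pos hη, div_le_iff₀ hη]; exact h
  have h2 := abs_le.1 h1
  have f1 := Int.floor_le (a / η)
  have f2 := Int.lt_floor_add_one (a / η)
  have f3 := Int.floor_le (a' / η)
  have f4 := Int.lt_floor_add_one (a' / η)
  have e : ⌊a / η⌋ = ⌊a' / η⌋ := by
    refine dbl_fm_eq hl ?_ ?_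
    · have : ((⌊a / η⌋ : ℝ) - ⌊a' / η⌋) < 1000 := by linarith [h2.1, h2.2]
      exact_mod_cast this
    · have : ((⌊a' / η⌋ : ℝ) - ⌊a / η⌋) < 1000 := by linarith [h2.1, h2.2]
      exact_mod_cast this
  have h3 := Int.abs_sub_lt_one_of_floor_eq_floor e
  rw [← sub_div, abs_div, abs_of_pos hη, div_lt_one hη] at h3
  exact h3.le

lemma dbl_tent_branch {n : ℕ} {x x' : ℤ} (h0 : 0 ≤ x) (h1 : x < n) (h0' : 0 ≤ x') (h1' : x' < n)
    (hb : decide (x ≤ n - x) = decide (x' ≤ n - x')) :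
    |(x : ℝ) - x'| = |(tent n x : ℝ) - tent n x'| := by
  have hb' : x ≤ n - x ↔ x' ≤ n - x' := by simpa using hb
  unfold tent
  rw [Int.emod_eq_of_lt h0 h1, Int.emod_eq_of_lt h0' h1']
  by_cases h : x ≤ n - x
  · rw [min_eq_left h, min_eq_left (hb'.1 h)]
  · rw [min_eq_right (le_of_not_ge h), min_eq_right (le_of_not_ge (mt hb'.2 h))]
    push_cast
    rw [abs_sub_comm]; congr 1; ring

lemma dbl_tent_mem {n : ℕ} (hn : 0 < n) (x : ℤ) : 0 ≤ tent n x ∧ tent n x ≤ n := by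
  have h1 := Int.emod_nonneg x (show (n : ℤ) ≠ 0 by omega)
  have h2 := Int.emod_lt_of_pos x (show (0 : ℤ) < n by omega)
  unfold tent
  omega

lemma dbl_uvec_cases (K : ℕ) (a : ℤ) (v : Fin K) : uvec K a v = 0 ∨ uvec K a v = 1 := by
  unfold uvec; split_ifs <;> simp

lemma dbl_uvec_nonneg (K : ℕ) (a : ℤ) (v : Fin K) : 0 ≤ uvec K a v := by
  rcases dbl_uvec_cases K a v with h | h <;> rw [h]; norm_num

lemma dbl_uvec_le (K : ℕ) (a : ℤ) (v : Fin K) : uvec K a v ≤ 1 := by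
  rcases dbl_uvec_cases K a v with h | h <;> rw [h]; norm_num

lemma dbl_uvec_sum (K : ℕ) (a : ℤ) : ∑ v, uvec K a v ≤ 1 := by
  unfold uvec
  rw [sum_boole]
  have : (univ.filter fun v : Fin K => a % K = (v : ℕ)).card ≤ 1 := by
    refine card_le_one.2 fun v hv w hw => ?_
    simp only [mem_filter, mem_univ, true_and] at hv hw
    apply Fin.ext
    omega
  exact_mod_cast this

/-- sub-probability vectors -/
def dbl_Prob {K : ℕ} (p : Fin K → ℝ) : Prop := (∀ v, 0 ≤ p v) ∧ (∀ v, p v ≤ 1) ∧ ∑ v, p v ≤ 1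

lemma dbl_prob_uvec (K : ℕ) (a : ℤ) : dbl_Prob (uvec K a) :=
  ⟨dbl_uvec_nonneg K a, dbl_uvec_le K a, dbl_uvec_sum K a⟩

lemma dbl_prob_upath (K : ℕ) {w : ℕ} (hw : 0 < w) (s : ℤ) : dbl_Prob (upath K w s) := by
  have h1 := Int.emod_nonneg s (show (w : ℤ) ≠ 0 by omega)
  have h2 := Int.emod_lt_of_pos s (show (0 : ℤ) < w by omega)
  have hw' : (0 : ℝ) < w := by exact_mod_cast hw
  have t0 : 0 ≤ ((s % w : ℤ) : ℝ) / w := div_nonneg (by exact_mod_cast h1) hw'.le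
  have t1 : ((s % w : ℤ) : ℝ) / w ≤ 1 := by
    rw [div_le_one hw']; exact_mod_cast h2.le
  unfold upath
  set θ := ((s % w : ℤ) : ℝ) / w
  refine ⟨fun v => ?_, fun v => ?_, ?_⟩
  · exact add_nonneg (mul_nonneg (by linarith) (dbl_uvec_nonneg _ _ _))
      (mul_nonneg t0 (dbl_uvec_nonneg _ _ _))
  · nlinarith [mul_le_mul_of_nonneg_left (dbl_uvec_le K (s / w) v) (sub_nonneg.2 t1),
      mul_le_mul_of_nonneg_left (dbl_uvec_le K (s / w + 1) v) t0]
  · rw [sum_add_distrib, ← mul_sum, ← mul_sum]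
    nlinarith [mul_le_mul_of_nonneg_left (dbl_uvec_sum K (s / w)) (sub_nonneg.2 t1),
      mul_le_mul_of_nonneg_left (dbl_uvec_sum K (s / w + 1)) t0]

lemma dbl_prob_sq {K : ℕ} {p q : Fin K → ℝ} (hp : dbl_Prob p) (hq : dbl_Prob q) (r : ℝ) :
    ∑ v, (r * p v - r * q v) ^ 2 ≤ 2 * r ^ 2 := by
  have : ∑ v, (p v - q v) ^ 2 ≤ 2 := by
    calc ∑ v, (p v - q v) ^ 2 ≤ ∑ v, (p v + q v) := sum_le_sum fun v _ => by
          nlinarith [hp.1 v, hp.2.1 v, hq.1 v, hq.2.1 v, mul_nonneg (hp.1 v) (hq.1 v),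
            mul_nonneg (hp.1 v) (sub_nonneg.2 (hp.2.1 v)),
            mul_nonneg (hq.1 v) (sub_nonneg.2 (hq.2.1 v))]
      _ ≤ 2 := by rw [sum_add_distrib]; linarith [hp.2.2, hq.2.2]
  calc ∑ v, (r * p v - r * q v) ^ 2 = r ^ 2 * ∑ v, (p v - q v) ^ 2 := by
        rw [mul_sum]; exact sum_congr rfl fun v _ => by ring
    _ ≤ r ^ 2 * 2 := by gcongr
    _ = _ := by ring

lemma dbl_upath_step (K : ℕ) {w : ℕ} (hw : 0 < w) (s : ℤ) (v : Fin K) :
    upath K w (s + 1) v - upath K w s v = (uvec K (s / w + 1) v - uvec K (s / w) v) / w := by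
  have hw0 : (0 : ℤ) < w := by omega
  have h1 := Int.emod_nonneg s hw0.ne'
  have h2 := Int.emod_lt_of_pos s hw0
  have h3 := Int.emod_add_mul_ediv s w
  have hw' : (w : ℝ) ≠ 0 := by exact_mod_cast hw.ne'
  unfold upath
  rcases (show s % w + 1 ≤ w by omega).lt_or_eq with h | h
  · have e := (Int.ediv_emod_unique (a := s + 1) (r := s % w + 1) (q := s / w) hw0).2
      ⟨by linarith, by omega, h⟩
    rw [e.1, e.2]
    push_cast
    field_simp
    ring
  · have e := (Int.ediv_emod_unique (a := s + 1) (r := 0) (q := s / w + 1) hw0).2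
      ⟨by linarith, le_rfl, hw0⟩
    have h4 : ((s % w : ℤ) : ℝ) = w - 1 := by
      have : s % w = w - 1 := by omega
      rw [this]; push_cast; ring
    rw [e.1, e.2, h4]
    push_cast
    field_simp
    ring

lemma dbl_upath_nat (K : ℕ) {w : ℕ} (hw : 0 < w) (s : ℤ) (n : ℕ) :
    (∀ v, |upath K w (s + n) v - upath K w s v| ≤ n / w) ∧
      ∑ v, |upath K w (s + n) v - upath K w s v| ≤ 2 * (n / w) := by
  have hw' : (0 : ℝ) < w := by exact_mod_cast hw
  induction n with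
  | zero => simp
  | succ n ih =>
    have e : ∀ v, upath K w (s + (n + 1 : ℕ)) v - upath K w s v =
        (uvec K ((s + n) / w + 1) v - uvec K ((s + n) / w) v) / w +
          (upath K w (s + n) v - upath K w s v) := by
      intro v
      rw [← dbl_upath_step K hw]
      push_cast
      rw [← add_assoc]; ring
    have b1 : ∀ v, |(uvec K ((s + n) / w + 1) v - uvec K ((s + n) / w) v) / w| ≤
        (uvec K ((s + n) / w + 1) v + uvec K ((s + n) / w) v) / w := by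
      intro v
      rw [abs_div, abs_of_pos hw']
      gcongr
      rw [abs_le]
      constructor <;>
        linarith [dbl_uvec_nonneg K ((s + n) / w + 1) v, dbl_uvec_nonneg K ((s + n) / w) v]
    have b2 : ∀ v, |(uvec K ((s + n) / w + 1) v - uvec K ((s + n) / w) v) / w| ≤ 1 / w := by
      intro v
      rw [abs_div, abs_of_pos hw']
      gcongr
      rw [abs_le]
      constructor <;>
        linarith [dbl_uvec_nonneg K ((s + n) / w + 1) v, dbl_uvec_nonneg K ((s + n) / w) v,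
          dbl_uvec_le K ((s + n) / w + 1) v, dbl_uvec_le K ((s + n) / w) v]
    constructor
    · intro v
      rw [e]
      refine (abs_add_le _ _).trans ?_
      have := add_le_add (b2 v) (ih.1 v)
      push_cast
      rw [add_div]; linarith
    · calc ∑ v, |upath K w (s + (n + 1 : ℕ)) v - upath K w s v| ≤
            ∑ v, ((uvec K ((s + n) / w + 1) v + uvec K ((s + n) / w) v) / w +
              |upath K w (s + n) v - upath K w s v|) := sum_le_sum fun v _ => by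
            rw [e]
            exact (abs_add_le _ _).trans (add_le_add (b1 v) le_rfl)
        _ ≤ (1 + 1) / w + 2 * (n / w) := by
            rw [sum_add_distrib, ← sum_div, sum_add_distrib]
            gcongr
            · exact dbl_uvec_sum _ _
            · exact dbl_uvec_sum _ _
            · exact ih.2
        _ = _ := by push_cast; ring

lemma dbl_upath_lip (K : ℕ) {w : ℕ} (hw : 0 < w) (s s' : ℤ) :
    ∑ v, (upath K w s v - upath K w s' v) ^ 2 ≤ 2 * (|(s : ℝ) - s'| / w) ^ 2 := by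
  wlog h : s' ≤ s generalizing s s'
  · have := this s' s (le_of_not_ge h)
    rw [abs_sub_comm]
    refine le_of_eq_of_le (sum_congr rfl fun v _ => ?_) this
    ring
  obtain ⟨n, rfl⟩ := Int.le.dest h
  obtain ⟨h1, h2⟩ := dbl_upath_nat K hw s' n
  have e : |((s' + n : ℤ) : ℝ) - s'| = n := by push_cast; simp
  rw [e]
  calc _ ≤ ∑ v, (n / w : ℝ) * |upath K w (s' + n) v - upath K w s' v| := sum_le_sum fun v _ => by
        rw [← sq_abs, sq]
        exact mul_le_mul_of_nonneg_right (h1 v) (abs_nonneg _)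
    _ ≤ (n / w : ℝ) * (2 * (n / w)) := by
        rw [← mul_sum]; gcongr
    _ = _ := by ring

lemma dbl_int_eq {a a' : ℤ} {τ b : ℝ} (hb : b < τ) (hb0 : 0 ≤ b) (h : |τ * a - τ * a'| ≤ b) :
    a = a' := by
  by_contra hne
  have h1 : (1 : ℝ) ≤ |(a : ℝ) - a'| := by
    have : 1 ≤ |a - a'| := Int.one_le_abs (sub_ne_zero.2 hne)
    exact_mod_cast this
  rw [← mul_sub, abs_mul, abs_of_pos (hb0.trans_lt hb)] at h
  nlinarith

namespace Par

variable {P : Par} {L : ℕ}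

lemma dbl_lam (hP : P.Good L) : 1 ≤ P.lam := by
  have h1 := hP.hK
  have h2 := hP.hL
  have : 0 < 800000 * L ^ 2 * P.K ^ 6 := by positivity
  have := hP.hlam
  omega

lemma dbl_R (hP : P.Good L) : 2 ≤ P.R := by
  have h1 := dbl_lam hP
  have h2 : 100 * 1 * 1 * 1 ≤ 100 * P.lam * (P.N + 1) * (P.m + 1) := by
    gcongr <;> omega
  have := hP.hR4
  omega

/-- squared contribution of one level -/
noncomputable def dbl_lev (s s' : ℤ) (t t' : Fin P.N → ℤ) (σ σ' : Fin P.N → ℕ) (c : Fin P.N)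
    (i : Fin P.m) : ℝ :=
  ∑ v, (P.coord s t σ (Sum.inr (Sum.inr (Sum.inl (c, i, v)))) -
      P.coord s' t' σ' (Sum.inr (Sum.inr (Sum.inl (c, i, v))))) ^ 2 +
    (P.coord s t σ (Sum.inr (Sum.inr (Sum.inr (c, i)))) -
      P.coord s' t' σ' (Sum.inr (Sum.inr (Sum.inr (c, i))))) ^ 2

lemma dbl_norm_sq (s s' : ℤ) (t t' : Fin P.N → ℤ) (σ σ' : Fin P.N → ℕ) :
    ‖P.Phi s t σ - P.Phi s' t' σ'‖ ^ 2 = ((tent P.M s : ℝ) - tent P.M s') ^ 2 +
      ∑ c : Fin P.N, ((P.tau c : ℝ) * (tent P.W (t c) : ℝ) - (P.tau c : ℝ) * (tent P.W (t' c) : ℝ)) ^ 2 +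
      ∑ c, ∑ i, dbl_lev s s' t t' σ σ' c i := by
  rw [EuclideanSpace.real_norm_sq_eq]
  simp only [Fintype.sum_sum_type, Fintype.sum_prod_type, dbl_lev, sum_add_distrib, Phi,
    PiLp.sub_apply, Fintype.sum_unique]
  rw [add_assoc]
  rfl

lemma dbl_lev_le (hP : P.Good L) (s s' : ℤ) (t t' : Fin P.N → ℤ) (σ σ' : Fin P.N → ℕ)
    (c : Fin P.N) (i : Fin P.m) : dbl_lev s s' t t' σ σ' c i ≤ 3 * (P.r c i : ℝ) ^ 2 := by
  have hl := dbl_lam hP
  have hR := dbl_R hP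
  have hw : 0 < P.cw c i := by unfold cw r; positivity
  have hl' : (1 : ℝ) ≤ P.lam := by exact_mod_cast hl
  have hd : ((P.r c i : ℝ) / P.lam) ^ 2 ≤ (P.r c i : ℝ) ^ 2 := by
    gcongr
    exact div_le_self (Nat.cast_nonneg _) hl'
  have h0 := sq_nonneg (P.r c i : ℝ)
  unfold dbl_lev
  simp only [coord]
  split_ifs
  · have := dbl_prob_sq (dbl_prob_upath P.K hw s) (dbl_prob_upath P.K hw s') (P.r c i)
    nlinarith
  · have := dbl_prob_sq (dbl_prob_upath P.K hw s)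
      (dbl_prob_uvec P.K (t' c / ((P.R ^ (i : ℕ) : ℕ) : ℤ))) (P.r c i)
    nlinarith
  · have := dbl_prob_sq (dbl_prob_uvec P.K (t c / ((P.R ^ (i : ℕ) : ℕ) : ℤ)))
      (dbl_prob_upath P.K hw s') (P.r c i)
    nlinarith
  · have := dbl_prob_sq (dbl_prob_uvec P.K (t c / ((P.R ^ (i : ℕ) : ℕ) : ℤ)))
      (dbl_prob_uvec P.K (t' c / ((P.R ^ (i : ℕ) : ℕ) : ℤ))) (P.r c i)
    nlinarith

lemma dbl_lev_col (hP : P.Good L) {s s' : ℤ} (t t' : Fin P.N → ℤ) {σ σ' : Fin P.N → ℕ}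
    {c : Fin P.N} {i : Fin P.m} {η : ℝ} (hs : |(s : ℝ) - s'| ≤ η) (h1 : σ c ≤ i) (h2 : σ' c ≤ i) :
    dbl_lev s s' t t' σ σ' c i ≤ 2 * η ^ 2 * (1 / (P.lam : ℝ) ^ ((i : ℕ) + 1)) ^ 2 := by
  have hl := dbl_lam hP
  have hR := dbl_R hP
  have hw : 0 < P.cw c i := by unfold cw r; positivity
  have hr : (0 : ℝ) < P.r c i := by
    have : 0 < P.r c i := by unfold r; positivity
    exact_mod_cast this
  have hl' : (0 : ℝ) < P.lam := by exact_mod_cast hl
  unfold dbl_lev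
  simp only [coord, if_pos h1, if_pos h2, sub_self]
  have h3 := dbl_upath_lip P.K hw s s'
  have hcw : (P.cw c i : ℝ) = P.r c i * (P.lam : ℝ) ^ ((i : ℕ) + 1) := by
    unfold cw; push_cast; ring
  calc _ = (P.r c i : ℝ) ^ 2 * ∑ v, (upath P.K (P.cw c i) s v - upath P.K (P.cw c i) s' v) ^ 2 := by
        rw [mul_sum]
        simp only [ne_eq, OfNat.ofNat_ne_zero, not_false_eq_true, zero_pow, add_zero]
        exact sum_congr rfl fun v _ => by ring
    _ ≤ (P.r c i : ℝ) ^ 2 * (2 * (η / P.cw c i) ^ 2) := by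
        gcongr
        refine h3.trans ?_
        gcongr
    _ = _ := by rw [hcw]; field_simp

lemma dbl_lev_row (s s' : ℤ) {t t' : Fin P.N → ℤ} {σ σ' : Fin P.N → ℕ}
    {c : Fin P.N} {i : Fin P.m} (h1 : ¬ σ c ≤ i) (h2 : ¬ σ' c ≤ i)
    (h : ∀ v, uvec P.K (t c / ((P.R ^ (i : ℕ) : ℕ) : ℤ)) v =
      uvec P.K (t' c / ((P.R ^ (i : ℕ) : ℕ) : ℤ)) v) :
    dbl_lev s s' t t' σ σ' c i = 0 := by
  unfold dbl_lev
  simp only [coord, if_neg h1, if_neg h2, h, sub_self]
  simp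

lemma dbl_main (hP : P.Good L) {ρ : ℝ} (hρ : 0 < ρ) {e : ℕ}
    (hco : ∀ k, e < k → 8 * ρ < (P.R : ℝ) ^ k / P.lam)
    (hfi : ∀ k, k < e → (P.R : ℝ) ^ k ≤ 8 * ρ * P.lam / P.R)
    {s s' : ℤ} {t t' : Fin P.N → ℤ} {σ σ' : Fin P.N → ℕ} (hσ : P.cost σ ≤ 2)
    (hsup : ∀ j, |P.coord s t σ j - P.coord s' t' σ' j| ≤ 8 * ρ)
    (hs : |(s : ℝ) - s'| ≤ ρ / 100) (hs' : |(tent P.M s : ℝ) - tent P.M s'| ≤ ρ / 100)
    (hc : ∀ c : Fin P.N, (c : ℕ) = e / (P.m + 1) →
      |(P.tau c : ℝ) * (tent P.W (t c) : ℝ) - (P.tau c : ℝ) * (tent P.W (t' c) : ℝ)| ≤ ρ / 100 ∧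
      (P.tau c : ℝ) * |(t c : ℝ) - t' c| ≤ ρ / 100 ∧
      (σ c ≤ e % (P.m + 1) ↔ σ' c ≤ e % (P.m + 1)) ∧
      dbl_fm (t c / ((P.R ^ (e % (P.m + 1)) : ℕ) : ℤ)) =
        dbl_fm (t' c / ((P.R ^ (e % (P.m + 1)) : ℕ) : ℤ))) :
    ‖P.Phi s t σ - P.Phi s' t' σ'‖ ≤ ρ := by
  have hl := dbl_lam hP
  have hR := dbl_R hP
  have hl' : (1 : ℝ) ≤ P.lam := by exact_mod_cast hl
  have hR' : (0 : ℝ) < P.R := by exact_mod_cast (show 0 < P.R by omega)
  set η := ρ / 100 with hη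
  set φ := 8 * ρ * P.lam / P.R with hφ
  have hη0 : 0 < η := by positivity
  have hφ0 : 0 ≤ φ := by positivity
  have hco' : ∀ k, e < k → 8 * ρ < (P.R : ℝ) ^ k := fun k hk =>
    (hco k hk).trans_le (div_le_self (by positivity) hl')
  have hdm := Nat.div_add_mod e (P.m + 1)
  have hmod := Nat.mod_lt e (show 0 < P.m + 1 by omega)
  have sq_le : ∀ {x b : ℝ}, |x| ≤ b → x ^ 2 ≤ b ^ 2 := fun h => by
    rw [← sq_abs]; gcongr
  -- the `t` coordinates
  have hB : ∀ c : Fin P.N,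
      ((P.tau c : ℝ) * (tent P.W (t c) : ℝ) - (P.tau c : ℝ) * (tent P.W (t' c) : ℝ)) ^ 2 ≤
        (if (c : ℕ) = e / (P.m + 1) then η ^ 2 else 0) + φ ^ 2 := by
    intro c
    rcases lt_trichotomy (c : ℕ) (e / (P.m + 1)) with h | h | h
    · rw [if_neg h.ne, zero_add]
      have hW : 0 < P.W := by unfold W; positivity
      have hk : c * (P.m + 1) + P.m < e := by
        have : (c + 1) * (P.m + 1) ≤ (e / (P.m + 1)) * (P.m + 1) := Nat.mul_le_mul_right _ h
        rw [add_mul, one_mul, mul_comm (e / (P.m + 1))] at this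
        omega
      have h1 := hfi _ hk
      have h2 : (P.tau c : ℝ) * P.W ≤ φ := by
        unfold tau W; push_cast; rw [← pow_add]; exact h1
      have ht0 : (0 : ℝ) ≤ P.tau c := Nat.cast_nonneg _
      have b : ∀ x : ℤ, 0 ≤ (P.tau c : ℝ) * (tent P.W x : ℝ) ∧ (P.tau c : ℝ) * (tent P.W x : ℝ) ≤ φ := by
        intro x
        obtain ⟨u1, u2⟩ := dbl_tent_mem hW x
        have u1' : (0 : ℝ) ≤ tent P.W x := by exact_mod_cast u1
        have u2' : (tent P.W x : ℝ) ≤ P.W := by exact_mod_cast u2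
        exact ⟨by positivity, (mul_le_mul_of_nonneg_left u2' ht0).trans h2⟩
      refine sq_le (abs_le.2 ⟨?_, ?_⟩) <;> linarith [(b (t c)).1, (b (t c)).2, (b (t' c)).1, (b (t' c)).2]
    · rw [if_pos h]
      have := sq_le (hc c h).1
      nlinarith [sq_nonneg φ]
    · rw [if_neg h.ne', zero_add]
      have hk : e < c * (P.m + 1) := by
        have : (e / (P.m + 1) + 1) * (P.m + 1) ≤ c * (P.m + 1) := Nat.mul_le_mul_right _ h
        nlinarith
      have h1 : 8 * ρ < P.tau c := by unfold tau; push_cast; exact hco' _ hk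
      have h2 := dbl_int_eq h1 (by positivity) (hsup (Sum.inr (Sum.inl c)))
      rw [h2, sub_self]
      simp only [ne_eq, OfNat.ofNat_ne_zero, not_false_eq_true, zero_pow]
      positivity
  -- the levels
  have hE : ∀ (c : Fin P.N) (i : Fin P.m), dbl_lev s s' t t' σ σ' c i ≤
      2 * η ^ 2 * (if σ c ≤ i then (1 / (P.lam : ℝ) ^ ((i : ℕ) + 1)) ^ 2 else 0) +
        (if (c : ℕ) = e / (P.m + 1) then (if (i : ℕ) = e % (P.m + 1) then 3 * η ^ 2 else 0) else 0) +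
        3 * φ ^ 2 := by
    intro c i
    have p1 : 0 ≤ 2 * η ^ 2 * (if σ c ≤ i then (1 / (P.lam : ℝ) ^ ((i : ℕ) + 1)) ^ 2 else 0) := by
      split_ifs <;> positivity
    have p2 : 0 ≤ (if (c : ℕ) = e / (P.m + 1) then
        (if (i : ℕ) = e % (P.m + 1) then 3 * η ^ 2 else 0) else 0) := by
      split_ifs <;> positivity
    have p3 : 0 ≤ 3 * φ ^ 2 := by positivity
    have hr : (P.r c i : ℝ) = (P.R : ℝ) ^ (c * (P.m + 1) + i) := by unfold r; push_cast; rfl
    have hcol : σ c ≤ i → σ' c ≤ i → dbl_lev s s' t t' σ σ' c i ≤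
        2 * η ^ 2 * (if σ c ≤ i then (1 / (P.lam : ℝ) ^ ((i : ℕ) + 1)) ^ 2 else 0) := by
      intro h1 h2
      rw [if_pos h1]
      exact dbl_lev_col hP t t' hs h1 h2
    rcases lt_trichotomy (c * (P.m + 1) + i) e with h | h | h
    · have h1 := dbl_lev_le hP s s' t t' σ σ' c i
      have h2 : (P.r c i : ℝ) ^ 2 ≤ φ ^ 2 := by
        gcongr
        rw [hr]; exact hfi _ h
      linarith
    · have hi : (i : ℕ) < P.m + 1 := by omega
      have hc1 : (c : ℕ) = e / (P.m + 1) := by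
        rw [← h, add_comm, Nat.add_mul_div_right _ _ (by omega), Nat.div_eq_of_lt hi, zero_add]
      have hi1 : (i : ℕ) = e % (P.m + 1) := by
        rw [← h, add_comm, Nat.add_mul_mod_self_right, Nat.mod_eq_of_lt hi]
      obtain ⟨-, c2, c3, c4⟩ := hc c hc1
      rw [← hi1] at c3 c4
      by_cases h1 : σ c ≤ i
      · linarith [hcol h1 (c3.1 h1)]
      · by_cases h2 : η < P.r c i
        · have hτ : (0 : ℝ) < P.tau c := by unfold tau; push_cast; positivity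
          have h3 : |(t c : ℝ) - t' c| < ((P.R ^ (i : ℕ) : ℕ) : ℝ) := by
            refine lt_of_mul_lt_mul_left (c2.trans_lt (h2.trans_le (le_of_eq ?_))) hτ.le
            unfold r tau; push_cast; rw [pow_add]
          have h4 : |t c - t' c| < ((P.R ^ (i : ℕ) : ℕ) : ℤ) := by exact_mod_cast h3
          have h5 : (0 : ℤ) < ((P.R ^ (i : ℕ) : ℕ) : ℤ) := by positivity
          have h6 : t c / ((P.R ^ (i : ℕ) : ℕ) : ℤ) = t' c / ((P.R ^ (i : ℕ) : ℕ) : ℤ) := by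
            generalize ((P.R ^ (i : ℕ) : ℕ) : ℤ) = q at h4 h5 c4 ⊢
            have a1 : t c / q ≤ (t' c + 1 * q) / q :=
              Int.ediv_le_ediv h5 (by linarith [(abs_lt.1 h4).2])
            have a2 : t' c / q ≤ (t c + 1 * q) / q :=
              Int.ediv_le_ediv h5 (by linarith [(abs_lt.1 h4).1])
            rw [Int.add_mul_ediv_right _ _ h5.ne'] at a1 a2
            exact dbl_fm_eq c4 (by omega) (by omega)
          rw [dbl_lev_row s s' h1 (mt c3.2 h1) fun v => by rw [h6]]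
          linarith
        · have h3 := dbl_lev_le hP s s' t t' σ σ' c i
          have h4 : (P.r c i : ℝ) ^ 2 ≤ η ^ 2 := by
            gcongr; exact not_lt.1 h2
          rw [if_pos hc1, if_pos hi1]
          linarith
    · have h1 := hco _ h
      have h2 := hco' _ h
      rw [← hr] at h1 h2
      have h3 := hsup (Sum.inr (Sum.inr (Sum.inr (c, i))))
      have hpos : 0 < (P.r c i : ℝ) / P.lam := by linarith
      simp only [coord] at h3
      by_cases a1 : σ c ≤ i <;> by_cases a2 : σ' c ≤ i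
      · linarith [hcol a1 a2]
      · rw [if_pos a1, if_neg a2, zero_sub, abs_neg, abs_of_pos hpos] at h3
        linarith
      · rw [if_neg a1, if_pos a2, sub_zero, abs_of_pos hpos] at h3
        linarith
      · rw [dbl_lev_row s s' a1 a2]
        · linarith
        · intro v
          have h4 := hsup (Sum.inr (Sum.inr (Sum.inl (c, i, v))))
          simp only [coord, if_neg a1, if_neg a2] at h4
          have hr0 : (0 : ℝ) < P.r c i := by linarith
          rcases dbl_uvec_cases P.K (t c / ((P.R ^ (i : ℕ) : ℕ) : ℤ)) v with u | u <;>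
            rcases dbl_uvec_cases P.K (t' c / ((P.R ^ (i : ℕ) : ℕ) : ℤ)) v with u' | u' <;>
            rw [u, u'] at h4 ⊢
          · rw [mul_zero, mul_one, zero_sub, abs_neg, abs_of_pos hr0] at h4; linarith
          · rw [mul_zero, mul_one, sub_zero, abs_of_pos hr0] at h4; linarith
  have ite_sum : ∀ {n : ℕ} (a : ℕ) (x : ℝ), 0 ≤ x →
      ∑ c : Fin n, (if (c : ℕ) = a then x else 0) ≤ x := by
    intro n a x hx
    rw [← sum_filter, sum_const, nsmul_eq_mul]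
    have : (univ.filter fun c : Fin n => (c : ℕ) = a).card ≤ 1 := by
      refine card_le_one.2 fun v hv w hw => ?_
      simp only [mem_filter, mem_univ, true_and] at hv hw
      exact Fin.ext (hv.trans hw.symm)
    have h1 : ((univ.filter fun c : Fin n => (c : ℕ) = a).card : ℝ) ≤ 1 := by exact_mod_cast this
    exact mul_le_of_le_one_left hx h1
  have S1 := sq_le hs'
  have S2 : ∑ c : Fin P.N, ((P.tau c : ℝ) * (tent P.W (t c) : ℝ) -
      (P.tau c : ℝ) * (tent P.W (t' c) : ℝ)) ^ 2 ≤ η ^ 2 + P.N * φ ^ 2 := by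
    refine (sum_le_sum fun c _ => hB c).trans ?_
    rw [sum_add_distrib]
    refine add_le_add (ite_sum _ _ (by positivity)) (by simp)
  have S3 : ∑ c, ∑ i, dbl_lev s s' t t' σ σ' c i ≤
      2 * η ^ 2 * 2 + 3 * η ^ 2 + P.N * (P.m * (3 * φ ^ 2)) := by
    refine (sum_le_sum fun c _ => sum_le_sum fun i _ => hE c i).trans ?_
    simp only [sum_add_distrib]
    refine add_le_add (add_le_add ?_ ?_) (by simp)
    · simp only [← mul_sum]
      exact mul_le_mul_of_nonneg_left hσ (by positivity)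
    · refine le_trans (sum_le_sum fun c _ => ?_) (ite_sum (e / (P.m + 1)) (3 * η ^ 2) (by positivity))
      split_ifs
      · exact ite_sum _ _ (by positivity)
      · simp
  have hN0 : (0 : ℝ) ≤ P.N := Nat.cast_nonneg _
  have hm0 : (0 : ℝ) ≤ P.m := Nat.cast_nonneg _
  have hφb : ((P.N : ℝ) + 1) * (P.m + 1) * φ ≤ 8 * η := by
    have h1 : 100 * (P.lam : ℝ) * (P.N + 1) * (P.m + 1) ≤ P.R := by exact_mod_cast hP.hR4
    rw [hφ, hη, ← mul_div_assoc, div_le_iff₀ hR']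
    nlinarith
  have hφ1 : φ ≤ 8 * η := by nlinarith [mul_nonneg hN0 hm0, mul_nonneg (mul_nonneg hN0 hm0) hφ0]
  have hφ2 : ((P.N : ℝ) + 1) * (P.m + 1) * φ * φ ≤ 8 * η * (8 * η) := by gcongr
  refine (pow_le_pow_iff_left₀ (norm_nonneg _) hρ.le two_ne_zero).1 ?_
  rw [dbl_norm_sq]
  have e1 : ρ = 100 * η := by rw [hη]; ring
  have q1 : 0 ≤ P.N * φ ^ 2 := by positivity
  have q2 : 0 ≤ P.m * φ ^ 2 := by positivity
  have q3 : 0 ≤ φ ^ 2 := by positivity
  rw [e1]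
  nlinarith [sq_nonneg η]

theorem labelDoubling {P : Par} {L : ℕ} (hP : P.Good L) : LabelDoubling Lab P.PhiOm := by
  intro ρ hρ
  have hl := dbl_lam hP
  have hR := dbl_R hP
  have hl' : (0 : ℝ) < P.lam := by exact_mod_cast hl
  have hR1 : (1 : ℝ) < P.R := by exact_mod_cast hR
  have hex : ∃ e : ℕ, 8 * ρ < (P.R : ℝ) ^ (e + 1) / P.lam := by
    obtain ⟨e, he⟩ := pow_unbounded_of_one_lt (8 * ρ * P.lam) hR1
    refine ⟨e, ?_⟩
    rw [lt_div_iff₀ hl']
    exact he.trans_le (pow_le_pow_right₀ hR1.le (Nat.le_succ e))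
  classical
  set e := Nat.find hex with he
  have hco : ∀ k, e < k → 8 * ρ < (P.R : ℝ) ^ k / P.lam := fun k hk =>
    (Nat.find_spec hex).trans_le (by gcongr; exacts [hR1.le, hk])
  have hfi : ∀ k, k < e → (P.R : ℝ) ^ k ≤ 8 * ρ * P.lam / P.R := by
    intro k hk
    have := not_lt.1 (Nat.find_min hex hk)
    rw [div_le_iff₀ hl', pow_succ] at this
    rwa [le_div_iff₀ (by linarith)]
  have hM : (0 : ℤ) < P.M := by unfold M; positivity
  have hW : (0 : ℤ) < P.W := by unfold W; positivity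
  let T : P.Om → ℤ := fun ω =>
    if h : e / (P.m + 1) < P.N then ω.2.1 ⟨e / (P.m + 1), h⟩ % P.W else 0
  let S : P.Om → ℕ := fun ω => if h : e / (P.m + 1) < P.N then ω.2.2.1 ⟨e / (P.m + 1), h⟩ else 0
  refine ⟨fun ω => (dbl_fm ⌊(tent P.M (ω.1 % P.M) : ℝ) / (ρ / 100)⌋,
    decide (ω.1 % P.M ≤ P.M - ω.1 % P.M),
    dbl_fm ⌊(P.tau (e / (P.m + 1)) : ℝ) * (tent P.W (T ω) : ℝ) / (ρ / 100)⌋,
    decide (T ω ≤ P.W - T ω), decide (S ω ≤ e % (P.m + 1)),
    dbl_fm (T ω / ((P.R ^ (e % (P.m + 1)) : ℕ) : ℤ))), ?_⟩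
  intro ω ω' hsup hlab
  have hred : ∀ ω : P.Om, P.PhiOm ω = P.Phi (ω.1 % P.M) (fun c => ω.2.1 c % P.W) ω.2.2.1 :=
    fun ω => Phi_congr hP _ (Int.mod_modEq _ _).symm fun c => (Int.mod_modEq _ _).symm
  rw [hred ω, hred ω'] at hsup ⊢
  simp only [Prod.mk.injEq] at hlab
  obtain ⟨l1, l2, l3, l4, l5, l6⟩ := hlab
  have hη : 0 < ρ / 100 := by positivity
  have e8 : 8 * ρ = 800 * (ρ / 100) := by ring
  have hs' : |(tent P.M (ω.1 % P.M) : ℝ) - tent P.M (ω'.1 % P.M)| ≤ ρ / 100 :=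
    dbl_floor hη (e8 ▸ hsup (Sum.inl ())) l1
  refine dbl_main hP hρ hco hfi ω.2.2.2 hsup ?_ hs' fun c hc => ?_
  · rw [dbl_tent_branch (Int.emod_nonneg _ hM.ne') (Int.emod_lt_of_pos _ hM)
      (Int.emod_nonneg _ hM.ne') (Int.emod_lt_of_pos _ hM) l2]
    exact hs'
  · have hlt : e / (P.m + 1) < P.N := hc ▸ c.2
    have hc' : (⟨e / (P.m + 1), hlt⟩ : Fin P.N) = c := Fin.ext hc.symm
    have hT : ∀ ω, T ω = ω.2.1 c % P.W := fun ω => by simp only [T, dif_pos hlt, hc']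
    have hS : ∀ ω, S ω = ω.2.2.1 c := fun ω => by simp only [S, dif_pos hlt, hc']
    simp only [hT, hS] at l3 l4 l5 l6
    rw [← hc] at l3
    have c1 := dbl_floor hη (e8 ▸ hsup (Sum.inr (Sum.inl c))) l3
    refine ⟨c1, ?_, by simpa using l5, l6⟩
    rw [dbl_tent_branch (Int.emod_nonneg _ hW.ne') (Int.emod_lt_of_pos _ hW)
      (Int.emod_nonneg _ hW.ne') (Int.emod_lt_of_pos _ hW) l4]
    rwa [← mul_sub, abs_mul, Nat.abs_cast] at c1

end Par

end Crest.Agent.R254
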