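import Crest.Agent.R254.Defs

/-!
# Energy inequalities on a finite abelian group
-/

set_option autoImplicit false

namespace Crest.Agent.R254

open Finset

variable {G E : Type*} [AddCommGroup G] [Fintype G] [NormedAddCommGroup E]

theorem Energy_shift (F : G → E) (h a : G) : ∑ g, ‖F (g + a + h) - F (g + a)‖ ^ 2 = En F h :=
  Equiv.sum_comp (Equiv.addRight a) fun g => ‖F (g + h) - F g‖ ^ 2

omit [Fintype G] in
theorem Energy_tele (F : G → E) (h g : G) (q : ℕ) :
    ∑ j ∈ range q, (F (g + j • h + h) - F (g + j • h)) = F (g + q • h) - F g := by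
  simpa [succ_nsmul, add_assoc] using sum_range_sub (fun j => F (g + j • h)) q

theorem En_nonneg (F : G → E) (h : G) : 0 ≤ En F h := by
  exact sum_nonneg fun _ _ => sq_nonneg _

theorem En_zero (F : G → E) : En F 0 = 0 := by
  simp [En]

theorem En_le (F : G → E) (h : G) (D : ℝ) (hD : ∀ g, ‖F (g + h) - F g‖ ^ 2 ≤ D) :
    En F h ≤ D * Fintype.card G := by
  refine (sum_le_sum fun g _ => hD g).trans_eq ?_
  simp [mul_comm]

theorem En_nsmul_le (F : G → E) (h : G) (q : ℕ) : En F (q • h) ≤ (q : ℝ) ^ 2 * En F h := by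
  calc En F (q • h) ≤ ∑ g, q * ∑ j ∈ range q, ‖F (g + j • h + h) - F (g + j • h)‖ ^ 2 := by
        refine sum_le_sum fun g _ => ?_
        rw [← Energy_tele F h g q]
        refine (pow_le_pow_left₀ (norm_nonneg _) (norm_sum_le _ _) 2).trans ?_
        simpa using sq_sum_le_card_mul_sum_sq (s := range q)
          (f := fun j => ‖F (g + j • h + h) - F (g + j • h)‖)
    _ = (q : ℝ) ^ 2 * En F h := by
        rw [← mul_sum, sum_comm]
        simp only [Energy_shift, sum_const, card_range, nsmul_eq_mul]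
        ring

theorem En_pert (F F' : G → E) (h : G) (δ D : ℝ) (hδ : ∀ g, ‖F g - F' g‖ ≤ δ)
    (hD : ∀ g, ‖F (g + h) - F g‖ ≤ D) :
    En F h - 4 * δ * D * Fintype.card G ≤ En F' h := by
  have key : ∀ g, ‖F (g + h) - F g‖ ^ 2 - 4 * δ * D ≤ ‖F' (g + h) - F' g‖ ^ 2 := by
    intro g
    have h1 : ‖F (g + h) - F g‖ ≤ ‖F' (g + h) - F' g‖ + 2 * δ := by
      have : F (g + h) - F g = (F' (g + h) - F' g) + ((F (g + h) - F' (g + h)) - (F g - F' g)) := by
        abel
      rw [this]
      refine (norm_add_le _ _).trans (add_le_add_right ((norm_sub_le _ _).trans ?_) _)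
      linarith [hδ g, hδ (g + h)]
    have h2 : 0 ≤ δ := (norm_nonneg _).trans (hδ g)
    have h3 := hD g
    have h4 := norm_nonneg (F (g + h) - F g)
    have h5 := norm_nonneg (F' (g + h) - F' g)
    rcases le_total (‖F (g + h) - F g‖) (‖F' (g + h) - F' g‖) with h6 | h6
    · nlinarith [mul_nonneg h2 (h4.trans h3)]
    · nlinarith
  refine le_trans (le_of_eq ?_) (sum_le_sum fun g _ => key g)
  simp [En, mul_comm]

/-- variance identity -/
theorem En_var [InnerProductSpace ℝ E] (F : G → E) (h : G) (q : ℕ) (hq : 0 < q) :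
    ∑ j ∈ range q, ∑ g, ‖(F (g + j • h + h) - F (g + j • h)) -
        (1 / (q : ℝ)) • (F (g + q • h) - F g)‖ ^ 2 =
      q * En F h - En F (q • h) / q := by
  have hq' : (q : ℝ) ≠ 0 := by positivity
  simp only [norm_sub_sq_real (F (_ + _ • h + h) - _), sum_add_distrib, sum_sub_distrib,
    Energy_shift, ← mul_sum]
  rw [sum_comm (s := range q)]
  simp only [← sum_inner, Energy_tele, inner_smul_right, real_inner_self_eq_norm_sq, norm_smul,
    mul_pow, ← mul_sum, sum_const, card_range, nsmul_eq_mul, Real.norm_eq_abs, sq_abs]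
  rw [← En]
  field_simp
  ring

end Crest.Agent.R254
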