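import Crest.Agent.R254.Defs

/-!
# Geometry of the tower: Lipschitz bounds
-/

set_option autoImplicit false

namespace Crest.Agent.R254

theorem GeomB_succ {w : ℤ} (hw : 0 < w) (s : ℤ) :
    ((s + 1) / w = s / w ∧ (s + 1) % w = s % w + 1) ∨
      ((s + 1) / w = s / w + 1 ∧ (s + 1) % w = 0 ∧ s % w + 1 = w) := by
  have h1 := Int.emod_add_mul_ediv s w
  have h2 := Int.emod_nonneg s hw.ne'
  have h3 := Int.emod_lt_of_pos s hw
  rcases (show s % w + 1 ≤ w by omega).eq_or_lt with h | h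
  · refine Or.inr ?_
    have := (Int.ediv_emod_unique (a := s + 1) (q := s / w + 1) (r := 0) hw).2
      ⟨by linarith, le_rfl, hw⟩
    exact ⟨this.1, this.2, h⟩
  · exact Or.inl ((Int.ediv_emod_unique hw).2 ⟨by linarith, by omega, h⟩)

theorem GeomB_tent {n : ℕ} (hn : 0 < n) (x : ℤ) (k : ℕ) :
    ((tent n (x + k) : ℝ) - tent n x) ^ 2 ≤ (k : ℝ) ^ 2 := by
  have h : |tent n (x + k) - tent n x| ≤ k := by
    induction k with
    | zero => simp
    | succ k ih =>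
      have h1 := GeomB_succ (w := n) (by exact_mod_cast hn) (x + k)
      have h2 : x + ((k + 1 : ℕ) : ℤ) = x + k + 1 := by push_cast; ring
      rw [h2]
      simp only [tent, abs_le] at ih ⊢
      push_cast
      omega
  rw [sq_le_sq, Nat.abs_cast]
  exact_mod_cast h

theorem GeomB_uvec_nonneg (K : ℕ) (a : ℤ) (v : Fin K) : 0 ≤ uvec K a v := by
  unfold uvec; split_ifs <;> norm_num

theorem GeomB_uvec_sq (K : ℕ) (a : ℤ) : ∑ v, uvec K a v ^ 2 ≤ 1 := by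
  simp only [uvec, ite_pow, one_pow, ne_eq, OfNat.ofNat_ne_zero, not_false_eq_true, zero_pow,
    Finset.sum_boole]
  have : (Finset.univ.filter fun v : Fin K => a % K = (v : ℕ)).card ≤ 1 := by
    refine Finset.card_le_one.2 fun x hx y hy => Fin.ext ?_
    simp only [Finset.mem_filter] at hx hy
    exact_mod_cast hx.2.symm.trans hy.2
  exact_mod_cast this

theorem GeomB_diff {K : ℕ} {x y : Fin K → ℝ} (hx : ∀ v, 0 ≤ x v) (hy : ∀ v, 0 ≤ y v)
    (hx' : ∑ v, x v ^ 2 ≤ 1) (hy' : ∑ v, y v ^ 2 ≤ 1) (r : ℝ) :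
    ∑ v, (r * x v - r * y v) ^ 2 ≤ 2 * r ^ 2 := by
  calc ∑ v, (r * x v - r * y v) ^ 2 ≤ ∑ v, r ^ 2 * (x v ^ 2 + y v ^ 2) :=
        Finset.sum_le_sum fun v _ => by
          nlinarith [mul_nonneg (sq_nonneg r) (mul_nonneg (hx v) (hy v))]
    _ ≤ 2 * r ^ 2 := by
        rw [← Finset.mul_sum, Finset.sum_add_distrib]
        nlinarith [sq_nonneg r]

theorem GeomB_frac {w : ℕ} (hw : 0 < w) (s : ℤ) :
    0 ≤ ((s % w : ℤ) : ℝ) / w ∧ ((s % w : ℤ) : ℝ) / w ≤ 1 := by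
  have h0 : (0 : ℤ) < w := by exact_mod_cast hw
  have h1 : (0 : ℝ) < w := by exact_mod_cast hw
  refine ⟨div_nonneg (by exact_mod_cast Int.emod_nonneg s h0.ne') h1.le, (div_le_one h1).2 ?_⟩
  exact_mod_cast (Int.emod_lt_of_pos s h0).le

theorem GeomB_upath_nonneg (K : ℕ) {w : ℕ} (hw : 0 < w) (s : ℤ) (v : Fin K) :
    0 ≤ upath K w s v :=
  add_nonneg (mul_nonneg (sub_nonneg.2 (GeomB_frac hw s).2) (GeomB_uvec_nonneg _ _ _))
    (mul_nonneg (GeomB_frac hw s).1 (GeomB_uvec_nonneg _ _ _))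

theorem GeomB_upath_sq (K : ℕ) {w : ℕ} (hw : 0 < w) (s : ℤ) : ∑ v, upath K w s v ^ 2 ≤ 1 := by
  obtain ⟨h0, h1⟩ := GeomB_frac hw s
  unfold upath
  set θ := ((s % w : ℤ) : ℝ) / w
  calc _ ≤ ∑ v, ((1 - θ) * uvec K (s / w) v ^ 2 + θ * uvec K (s / w + 1) v ^ 2) :=
        Finset.sum_le_sum fun v _ => by
          nlinarith [mul_nonneg (mul_nonneg h0 (sub_nonneg.2 h1))
            (sq_nonneg (uvec K (s / w) v - uvec K (s / w + 1) v))]
    _ ≤ 1 := by
        rw [Finset.sum_add_distrib, ← Finset.mul_sum, ← Finset.mul_sum]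
        nlinarith [mul_le_mul_of_nonneg_left (GeomB_uvec_sq K (s / w)) (sub_nonneg.2 h1),
          mul_le_mul_of_nonneg_left (GeomB_uvec_sq K (s / w + 1)) h0]

theorem GeomB_upath_succ (K : ℕ) {w : ℕ} (hw : 0 < w) (s : ℤ) (v : Fin K) :
    upath K w (s + 1) v - upath K w s v =
      (w : ℝ)⁻¹ * uvec K (s / w + 1) v - (w : ℝ)⁻¹ * uvec K (s / w) v := by
  have h1 : (w : ℝ) ≠ 0 := by positivity
  unfold upath
  rcases GeomB_succ (w := w) (by exact_mod_cast hw) s with ⟨h2, h3⟩ | ⟨h2, h3, h4⟩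
  · rw [h2, h3, Int.cast_add, Int.cast_one]
    ring
  · have h5 : ((s % w : ℤ) : ℝ) = w - 1 := by
      rw [eq_sub_iff_add_eq]; exact_mod_cast h4
    rw [h2, h3, h5]
    field_simp
    push_cast
    ring

namespace Par

open Finset

variable {P : Par} {L : ℕ}

/-- Contribution of level `(c, i)` to the squared distance. -/
noncomputable def GeomB_lvl (P : Par) (s : ℤ) (t : Fin P.N → ℤ) (σ : Fin P.N → ℕ) (s' : ℤ)
    (t' : Fin P.N → ℤ) (σ' : Fin P.N → ℕ) (c : Fin P.N) (i : Fin P.m) : ℝ :=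
  ∑ v, ((if σ c ≤ i then (P.r c i : ℝ) * upath P.K (P.cw c i) s v
      else (P.r c i : ℝ) * uvec P.K (t c / ((P.R ^ (i : ℕ) : ℕ) : ℤ)) v) -
    (if σ' c ≤ i then (P.r c i : ℝ) * upath P.K (P.cw c i) s' v
      else (P.r c i : ℝ) * uvec P.K (t' c / ((P.R ^ (i : ℕ) : ℕ) : ℤ)) v)) ^ 2 +
  ((if σ c ≤ i then 0 else (P.r c i : ℝ) / P.lam) -
    (if σ' c ≤ i then 0 else (P.r c i : ℝ) / P.lam)) ^ 2

theorem GeomB_normsq (s : ℤ) (t : Fin P.N → ℤ) (σ : Fin P.N → ℕ) (s' : ℤ)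
    (t' : Fin P.N → ℤ) (σ' : Fin P.N → ℕ) :
    ‖P.Phi s t σ - P.Phi s' t' σ'‖ ^ 2 = ((tent P.M s : ℝ) - tent P.M s') ^ 2 +
      ∑ c : Fin P.N, ((P.tau c : ℝ) ^ 2 * ((tent P.W (t c) : ℝ) - tent P.W (t' c)) ^ 2 +
        ∑ i, P.GeomB_lvl s t σ s' t' σ' c i) := by
  rw [EuclideanSpace.norm_sq_eq]
  simp only [Phi, PiLp.sub_apply, Real.norm_eq_abs, sq_abs, Fintype.sum_sum_type,
    Fintype.sum_prod_type, coord, GeomB_lvl, sum_add_distrib, Fintype.sum_unique, ← mul_pow,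
    mul_sub]

theorem GeomB_lam (hP : P.Good L) : 1 ≤ P.lam := by
  have h1 := hP.hK
  have h2 := hP.hL
  exact le_trans (Nat.succ_le_of_lt (by positivity)) hP.hlam

theorem GeomB_R (hP : P.Good L) : 1 ≤ P.R := by
  have h1 := hP.hK
  have h2 := hP.hL
  exact le_trans (Nat.succ_le_of_lt (by positivity)) hP.hR1

theorem GeomB_cw (hP : P.Good L) (c i : ℕ) : 0 < P.cw c i := by
  have h1 := GeomB_lam hP
  have h2 := GeomB_R hP
  unfold cw r
  positivity

theorem GeomB_r_mono (hP : P.Good L) (c : ℕ) {i j : ℕ} (h : i ≤ j) :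
    (P.r c i : ℝ) ^ 2 ≤ (P.r c j : ℝ) ^ 2 := by
  have : P.r c i ≤ P.r c j := Nat.pow_le_pow_right (GeomB_R hP) (by omega)
  gcongr

theorem GeomB_lvl_sheet (hP : P.Good L) (s : ℤ) (t : Fin P.N → ℤ) (σ σ' : Fin P.N → ℕ)
    (c : Fin P.N) (i : Fin P.m) :
    P.GeomB_lvl s t σ s t σ' c i ≤ if (σ c ≤ i ↔ σ' c ≤ i) then 0 else 3 * (P.r c i : ℝ) ^ 2 := by
  have h1 : ((P.r c i : ℝ) / P.lam) ^ 2 ≤ (P.r c i : ℝ) ^ 2 := by
    have : (1 : ℝ) ≤ P.lam := by exact_mod_cast GeomB_lam hP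
    exact pow_le_pow_left₀ (by positivity) (div_le_self (by positivity) this) 2
  have hw := GeomB_cw hP c i
  have h2 := GeomB_diff (GeomB_upath_nonneg P.K hw s)
    (GeomB_uvec_nonneg P.K (t c / ((P.R ^ (i : ℕ) : ℕ) : ℤ))) (GeomB_upath_sq _ hw _)
    (GeomB_uvec_sq _ _) (P.r c i)
  have h3 := GeomB_diff (GeomB_uvec_nonneg P.K (t c / ((P.R ^ (i : ℕ) : ℕ) : ℤ)))
    (GeomB_upath_nonneg P.K hw s) (GeomB_uvec_sq _ _) (GeomB_upath_sq _ hw _) (P.r c i)
  unfold GeomB_lvl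
  by_cases h : σ c ≤ i <;> by_cases h' : σ' c ≤ i <;>
    simp only [h, h', if_true, if_false, iff_self, iff_false, iff_true, not_true, sub_self,
      zero_sub, sub_zero, neg_sq, sum_const_zero, ne_eq, OfNat.ofNat_ne_zero, not_false_eq_true,
      zero_pow, add_zero, le_refl] <;> linarith

theorem GeomB_sheet (hP : P.Good L) (s : ℤ) (t : Fin P.N → ℤ) (σ σ' : Fin P.N → ℕ) (c : Fin P.N)
    (h : ∀ c', c' ≠ c → σ c' = σ' c') :
    ‖P.Phi s t σ - P.Phi s t σ'‖ ^ 2 ≤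
      ∑ i : Fin P.m, if (σ c ≤ i ↔ σ' c ≤ i) then 0 else 3 * (P.r c i : ℝ) ^ 2 := by
  rw [GeomB_normsq]
  simp only [sub_self, ne_eq, OfNat.ofNat_ne_zero, not_false_eq_true, zero_pow, mul_zero, zero_add]
  refine (sum_le_sum fun c' _ => sum_le_sum fun i _ => GeomB_lvl_sheet hP s t σ σ' c' i).trans_eq ?_
  exact sum_eq_single c (fun c' _ hc => by simp [h c' hc]) (by simp)

theorem GeomB_step (hP : P.Good L) (s : ℤ) (t : Fin P.N → ℤ) (σ : Fin P.N → ℕ)
    (hσ : P.cost σ ≤ 2) : ‖P.Phi (s + 1) t σ - P.Phi s t σ‖ ^ 2 ≤ 5 := by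
  have hM : 0 < P.M := pow_pos (GeomB_R hP) _
  have h1 := GeomB_tent hM s 1
  have h2 : ∀ (c : Fin P.N) (i : Fin P.m), P.GeomB_lvl (s + 1) t σ s t σ c i ≤
      2 * if σ c ≤ i then (1 / (P.lam : ℝ) ^ ((i : ℕ) + 1)) ^ 2 else 0 := by
    intro c i
    unfold GeomB_lvl
    split_ifs with h
    · have hr : (P.r c i : ℝ) ≠ 0 := by
        have := GeomB_R hP
        unfold r
        positivity
      have h3 : (P.r c i : ℝ) * (P.cw c i : ℝ)⁻¹ = 1 / (P.lam : ℝ) ^ ((i : ℕ) + 1) := by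
        rw [cw]; push_cast; field_simp
      simp only [← mul_sub, GeomB_upath_succ _ (GeomB_cw hP c i), ← mul_assoc, h3]
      simpa only [← mul_sub, sub_self, ne_eq, OfNat.ofNat_ne_zero, not_false_eq_true, zero_pow,
        add_zero] using GeomB_diff (GeomB_uvec_nonneg P.K _) (GeomB_uvec_nonneg P.K _)
          (GeomB_uvec_sq _ _) (GeomB_uvec_sq _ _) (1 / (P.lam : ℝ) ^ ((i : ℕ) + 1))
    · simp
  have h3 := sum_le_sum fun c (_ : c ∈ univ) => sum_le_sum fun i (_ : i ∈ univ) => h2 c i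
  simp only [← mul_sum] at h3
  rw [GeomB_normsq]
  simp only [sub_self, ne_eq, OfNat.ofNat_ne_zero, not_false_eq_true, zero_pow, mul_zero, zero_add]
  simp only [Nat.cast_one, one_pow] at h1
  unfold cost at hσ
  linarith

theorem step_s (hP : P.Good L) (s : ℤ) (t : Fin P.N → ℤ) (σ : Fin P.N → ℕ) (hσ : P.cost σ ≤ 2)
    (n : ℕ) : ‖P.Phi (s + n) t σ - P.Phi s t σ‖ ^ 2 ≤ 5 * (n : ℝ) ^ 2 := by
  have h : ‖P.Phi (s + n) t σ - P.Phi s t σ‖ ≤ n * √5 := by
    induction n with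
    | zero => simp
    | succ n ih =>
      have h1 := Real.le_sqrt_of_sq_le (GeomB_step hP (s + n) t σ hσ)
      have h2 := norm_sub_le_norm_sub_add_norm_sub (P.Phi (s + n + 1) t σ) (P.Phi (s + n) t σ)
        (P.Phi s t σ)
      push_cast
      rw [← add_assoc]
      linarith
  refine (pow_le_pow_left₀ (norm_nonneg _) h 2).trans_eq ?_
  rw [mul_pow, Real.sq_sqrt (by norm_num), mul_comm]

theorem step_t (hP : P.Good L) (s : ℤ) (t : Fin P.N → ℤ) (σ : Fin P.N → ℕ) (c : Fin P.N)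
    (n j : ℕ) (hj : σ c ≤ j + 1) :
    ‖P.Phi s (Function.update t c (t c + n)) σ - P.Phi s t σ‖ ≤
      (n : ℝ) * P.tau c + 2 * (σ c : ℝ) * P.r c j := by
  have hW : 0 < P.W := pow_pos (GeomB_R hP) _
  have h1 := GeomB_tent hW (t c) n
  have h2 : ∀ i : Fin P.m, P.GeomB_lvl s (Function.update t c (t c + n)) σ s t σ c i ≤
      if (i : ℕ) < σ c then 2 * (P.r c j : ℝ) ^ 2 else 0 := by
    intro i
    unfold GeomB_lvl
    by_cases h : σ c ≤ i
    · simp [h, h.not_gt]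
    · have h3 := GeomB_r_mono hP c (show (i : ℕ) ≤ j by omega)
      have h4 := GeomB_diff (GeomB_uvec_nonneg P.K ((t c + n) / ((P.R ^ (i : ℕ) : ℕ) : ℤ)))
        (GeomB_uvec_nonneg P.K (t c / ((P.R ^ (i : ℕ) : ℕ) : ℤ))) (GeomB_uvec_sq _ _)
        (GeomB_uvec_sq _ _) (P.r c i)
      simp only [h, if_false, Function.update_self, not_le.1 h, if_true, sub_self]
      linarith
  have h3 : ∑ i : Fin P.m, (if (i : ℕ) < σ c then 2 * (P.r c j : ℝ) ^ 2 else 0) ≤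
      σ c * (2 * (P.r c j : ℝ) ^ 2) := by
    rw [← sum_filter, sum_const, nsmul_eq_mul]
    refine mul_le_mul_of_nonneg_right ?_ (by positivity)
    have : (univ.filter fun i : Fin P.m => (i : ℕ) < σ c).card ≤ σ c := by
      rw [Fin.card_filter_val_lt]; exact min_le_right _ _
    exact_mod_cast this
  have h4 := (sum_le_sum fun i _ => h2 i).trans h3
  refine le_of_sq_le_sq ?_ (by positivity)
  rw [GeomB_normsq, sum_eq_single c (fun c' _ hc => by simp [GeomB_lvl, hc]) (by simp),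
    Function.update_self]
  have h5 := mul_le_mul_of_nonneg_left h1 (sq_nonneg (P.tau c : ℝ))
  have h6 : (σ c : ℝ) ≤ (σ c : ℝ) ^ 2 := by exact_mod_cast Nat.le_self_pow two_ne_zero _
  have h7 := mul_le_mul_of_nonneg_right h6 (sq_nonneg (P.r c j : ℝ))
  have h8 : 0 ≤ (n : ℝ) * P.tau c * ((σ c : ℝ) * P.r c j) := by positivity
  have h9 : 0 ≤ (σ c : ℝ) ^ 2 * (P.r c j : ℝ) ^ 2 := by positivity
  nlinarith

theorem sheet_succ (hP : P.Good L) (s : ℤ) (t : Fin P.N → ℤ) (σ : Fin P.N → ℕ) (c : Fin P.N)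
    (j : ℕ) :
    ‖P.Phi s t (Function.update σ c (j + 1)) - P.Phi s t (Function.update σ c j)‖ ≤
      3 * (P.r c j : ℝ) := by
  refine le_of_sq_le_sq ((GeomB_sheet hP s t _ _ c fun c' hc => by simp [hc]).trans ?_)
    (by positivity)
  simp only [Function.update_self]
  calc _ ≤ ∑ i : Fin P.m, if (i : ℕ) = j then 3 * (P.r c j : ℝ) ^ 2 else 0 := by
        refine sum_le_sum fun i _ => ?_
        by_cases h : (i : ℕ) = j
        · simp [h]
        · rw [if_pos (by omega), if_neg h]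
    _ ≤ 1 * (3 * (P.r c j : ℝ) ^ 2) := by
        rw [← sum_filter, sum_const, nsmul_eq_mul]
        refine mul_le_mul_of_nonneg_right ?_ (by positivity)
        have : (univ.filter fun i : Fin P.m => (i : ℕ) = j).card ≤ 1 := by
          refine card_le_one.2 fun x hx y hy => Fin.ext ?_
          simp only [mem_filter] at hx hy
          exact hx.2.trans hy.2.symm
        exact_mod_cast this
    _ ≤ _ := by nlinarith [sq_nonneg (P.r c j : ℝ)]

theorem sheet_any (hP : P.Good L) (s : ℤ) (t : Fin P.N → ℤ) (σ : Fin P.N → ℕ) (c : Fin P.N)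
    (a : ℕ) :
    ‖P.Phi s t σ - P.Phi s t (Function.update σ c a)‖ ≤ 3 * (P.m : ℝ) * P.r c P.m := by
  refine le_of_sq_le_sq ((GeomB_sheet hP s t _ _ c fun c' hc => by simp [hc]).trans ?_)
    (by positivity)
  calc _ ≤ ∑ _i : Fin P.m, 3 * (P.r c P.m : ℝ) ^ 2 := by
        refine sum_le_sum fun i _ => ?_
        have := GeomB_r_mono hP c i.2.le
        split_ifs
        · positivity
        · linarith
    _ ≤ _ := by
        have h6 : (P.m : ℝ) ≤ (P.m : ℝ) ^ 2 := by exact_mod_cast Nat.le_self_pow two_ne_zero _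
        have h7 := mul_le_mul_of_nonneg_right h6 (sq_nonneg (P.r c P.m : ℝ))
        have h9 : 0 ≤ (P.m : ℝ) ^ 2 * (P.r c P.m : ℝ) ^ 2 := by positivity
        simp only [sum_const, card_univ, Fintype.card_fin, nsmul_eq_mul]
        nlinarith

end Par

end Crest.Agent.R254
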