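import Crest.Agent.R254.Defs

/-!
# Geometry of the tower: special points
-/

set_option autoImplicit false

namespace Crest.Agent.R254

namespace Par

open Finset

variable {P : Par} {L : ℕ}

theorem geomC_arith (K w : ℕ) (x : ℤ) (hK : 0 < K) (hw : 0 < w)
    (hx : x % ((K * w : ℕ) : ℤ) < w) (a : ℕ) :
    (x + (a * w : ℕ)) % (w : ℤ) = x % ((K * w : ℕ) : ℤ) ∧
      ∀ e : ℕ, ((x + (a * w : ℕ)) / (w : ℤ) + e) % (K : ℤ) = (((a + e) % K : ℕ) : ℤ) := by
  have hKw : ((K * w : ℕ) : ℤ) ≠ 0 := by positivity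
  have hw' : (0 : ℤ) < w := by exact_mod_cast hw
  set d := x % ((K * w : ℕ) : ℤ) with hd
  have hd0 : 0 ≤ d := Int.emod_nonneg _ hKw
  have h1 : x + (a * w : ℕ) = d + (w : ℤ) * (a + K * (x / ((K * w : ℕ) : ℤ))) := by
    have := Int.emod_add_mul_ediv x ((K * w : ℕ) : ℤ)
    rw [← hd] at this
    push_cast at this ⊢
    linear_combination -this
  rw [h1]
  refine ⟨by rw [Int.add_mul_emod_self_left, Int.emod_eq_of_lt hd0 hx], fun e => ?_⟩
  rw [Int.add_mul_ediv_left _ _ hw'.ne', Int.ediv_eq_zero_of_lt hd0 hx, zero_add, add_right_comm,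
    Int.add_mul_emod_self_left]
  push_cast; rfl

theorem geomC_uvec {K : ℕ} {x : ℤ} {u : Fin K} (hx : x % (K : ℤ) = ((u : ℕ) : ℤ)) (v : Fin K) :
    uvec K x v = if v = u then 1 else 0 := by
  unfold uvec
  rw [hx]
  simp only [Nat.cast_inj, Fin.val_inj, eq_comm]

theorem geomC_pos (hP : P.Good L) (hm : 0 < P.m) : 0 < P.K ∧ 2 ≤ P.lam ∧ 0 < P.R := by
  have hK := hP.hK
  have hL := hP.hL
  have h1 : 1 ≤ L ^ 2 * P.K ^ 6 := Nat.one_le_iff_ne_zero.2 (by positivity)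
  have h2 := hP.hlam
  have h3 := hP.hR1
  refine ⟨hK, by nlinarith, lt_of_lt_of_le (by positivity) h3⟩

theorem geomC_diff (s : ℤ) (t : Fin P.N → ℤ) (σ : Fin P.N → ℕ) (c : Fin P.N) (j : Fin P.m)
    (i : P.Idx) :
    P.Phi s t (Function.update σ c (j + 1)) i - P.Phi s t (Function.update σ c j) i =
      match i with
      | Sum.inl _ => 0
      | Sum.inr (Sum.inl _) => 0
      | Sum.inr (Sum.inr (Sum.inl (c', i', v))) => if c' = c ∧ i' = j then
          (P.r c j : ℝ) * (uvec P.K (t c / ((P.R ^ (j : ℕ) : ℕ) : ℤ)) v - upath P.K (P.cw c j) s v)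
          else 0
      | Sum.inr (Sum.inr (Sum.inr (c', i'))) =>
          if c' = c ∧ i' = j then (P.r c j : ℝ) / P.lam else 0 := by
  have key : ∀ (c' : Fin P.N) (i' : Fin P.m), ¬ (c' = c ∧ i' = j) →
      (Function.update σ c (j + 1) c' ≤ i' ↔ Function.update σ c j c' ≤ i') := by
    intro c' i' h
    by_cases hc : c' = c
    · subst hc
      have : (i' : ℕ) ≠ j := fun e => h ⟨rfl, Fin.ext e⟩
      simp only [Function.update_self]
      omega
    · simp only [Function.update_of_ne hc]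
  rcases i with i | i | ⟨c', i', v⟩ | ⟨c', i'⟩
  · simp [Phi, coord]
  · simp [Phi, coord]
  · by_cases h : c' = c ∧ i' = j
    · obtain ⟨rfl, rfl⟩ := h
      simp [Phi, coord, mul_sub]
    · simp only [Phi, coord, key c' i' h, if_neg h, sub_self]
  · by_cases h : c' = c ∧ i' = j
    · obtain ⟨rfl, rfl⟩ := h
      simp [Phi, coord]
    · simp only [Phi, coord, key c' i' h, if_neg h, sub_self]

theorem geomC_data (hP : P.Good L) (s : ℤ) (c : Fin P.N) (j : ℕ) (hj : j < P.m)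
    (hs : s % ((P.K * P.cw c j : ℕ) : ℤ) < ((P.r c j * P.lam ^ j : ℕ) : ℤ)) (a : ℕ)
    (ha : a < P.K) :
    ∃ (θ : ℝ) (a' : Fin P.K), 0 ≤ θ ∧ θ ≤ 1 / P.lam ∧ ∀ v, upath P.K (P.cw c j)
      (s + (a * P.cw c j : ℕ)) v
        = (1 - θ) * (if v = ⟨a, ha⟩ then 1 else 0) + θ * (if v = a' then 1 else 0) := by
  obtain ⟨hK, hl, hR⟩ := geomC_pos hP (by omega)
  have hr : 0 < P.r c j := by unfold r; positivity
  have hw : 0 < P.cw c j := by unfold cw; positivity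
  have hle : P.r c j * P.lam ^ j ≤ P.cw c j := by
    unfold cw
    exact Nat.mul_le_mul_left _ (Nat.pow_le_pow_right (by omega) (by omega))
  obtain ⟨h1, h2⟩ := geomC_arith P.K (P.cw c j) s hK hw (hs.trans_le (by exact_mod_cast hle)) a
  have hd0 : 0 ≤ s % ((P.K * P.cw c j : ℕ) : ℤ) := Int.emod_nonneg _ (by positivity)
  have hw' : (0 : ℝ) < P.cw c j := by exact_mod_cast hw
  have hl' : (0 : ℝ) < P.lam := by exact_mod_cast (by omega : 0 < P.lam)
  refine ⟨((s % ((P.K * P.cw c j : ℕ) : ℤ) : ℤ) : ℝ) / P.cw c j, ⟨(a + 1) % P.K, Nat.mod_lt _ hK⟩,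
    div_nonneg (by exact_mod_cast hd0) hw'.le, ?_, fun v => ?_⟩
  · rw [div_le_div_iff₀ hw' hl', one_mul]
    have h3 : ((s % ((P.K * P.cw c j : ℕ) : ℤ) : ℤ) : ℝ) ≤ ((P.r c j * P.lam ^ j : ℕ) : ℝ) := by
      exact_mod_cast hs.le
    refine (mul_le_mul_of_nonneg_right h3 hl'.le).trans (le_of_eq ?_)
    unfold cw
    push_cast; ring
  · unfold upath
    rw [h1, geomC_uvec (u := ⟨a, ha⟩), geomC_uvec (u := ⟨(a + 1) % P.K, Nat.mod_lt _ hK⟩)]
    · exact h2 1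
    · simpa [Nat.mod_eq_of_lt ha] using h2 0

theorem geomC_row (hP : P.Good L) (x : ℤ) (j : ℕ) (hj : j < P.m)
    (ht : x % ((P.K * P.R ^ j : ℕ) : ℤ) < ((P.R ^ j : ℕ) : ℤ)) (b : ℕ) (hb : b < P.K)
    (v : Fin P.K) :
    uvec P.K ((x + (b * P.R ^ j : ℕ)) / ((P.R ^ j : ℕ) : ℤ)) v = if v = ⟨b, hb⟩ then 1 else 0 := by
  obtain ⟨hK, hl, hR⟩ := geomC_pos hP (by omega)
  obtain ⟨-, h2⟩ := geomC_arith P.K (P.R ^ j) x hK (by positivity) ht b
  apply geomC_uvec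
  simpa [Nat.mod_eq_of_lt hb] using h2 0

theorem good_diag (hP : P.Good L) (s : ℤ) (t : Fin P.N → ℤ) (σ : Fin P.N → ℕ) (c : Fin P.N)
    (j : ℕ) (hj : j < P.m) (hs : s % ((P.K * P.cw c j : ℕ) : ℤ) < ((P.r c j * P.lam ^ j : ℕ) : ℤ))
    (ht : t c % ((P.K * P.R ^ j : ℕ) : ℤ) < ((P.R ^ j : ℕ) : ℤ)) (a : ℕ) (ha : a < P.K) :
    ‖P.Phi (s + (a * P.cw c j : ℕ)) (Function.update t c (t c + (a * P.R ^ j : ℕ)))
        (Function.update σ c (j + 1)) -
      P.Phi (s + (a * P.cw c j : ℕ)) (Function.update t c (t c + (a * P.R ^ j : ℕ)))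
        (Function.update σ c j)‖ ≤ 3 * (P.r c j : ℝ) / P.lam := by
  obtain ⟨θ, a', h0, h1, hθ⟩ := geomC_data hP s c j hj hs a ha
  have hrow := geomC_row hP (t c) j hj ht a ha
  have hdec : P.Phi (s + (a * P.cw c j : ℕ)) (Function.update t c (t c + (a * P.R ^ j : ℕ)))
        (Function.update σ c (j + 1)) -
      P.Phi (s + (a * P.cw c j : ℕ)) (Function.update t c (t c + (a * P.R ^ j : ℕ)))
        (Function.update σ c j) =
      EuclideanSpace.single (Sum.inr (Sum.inr (Sum.inl (c, ⟨j, hj⟩, ⟨a, ha⟩))) : P.Idx)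
          ((P.r c j : ℝ) * θ)
        - EuclideanSpace.single (Sum.inr (Sum.inr (Sum.inl (c, ⟨j, hj⟩, a'))) : P.Idx)
          ((P.r c j : ℝ) * θ)
        + EuclideanSpace.single (Sum.inr (Sum.inr (Sum.inr (c, ⟨j, hj⟩))) : P.Idx)
          ((P.r c j : ℝ) / P.lam) := by
    ext i
    rw [PiLp.sub_apply, geomC_diff _ _ σ c ⟨j, hj⟩ i]
    rcases i with i | i | ⟨c', i', v⟩ | ⟨c', i'⟩
    · simp
    · simp
    · by_cases h : c' = c ∧ i' = ⟨j, hj⟩
      · obtain ⟨rfl, rfl⟩ := h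
        simp only [Function.update_self, hrow, hθ, and_self, if_true]
        simp only [PiLp.add_apply, PiLp.sub_apply, EuclideanSpace.single_apply, Sum.inr.injEq,
          Sum.inl.injEq, Prod.mk.injEq, true_and, reduceCtorEq, if_false]
        split_ifs <;> ring
      · simp only [if_neg h]
        have h' : ∀ u : Fin P.K, ¬ (c' = c ∧ i' = ⟨j, hj⟩ ∧ v = u) := fun u hu => h ⟨hu.1, hu.2.1⟩
        simp [h']
    · by_cases h : c' = c ∧ i' = ⟨j, hj⟩
      · obtain ⟨rfl, rfl⟩ := h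
        simp
      · simp only [if_neg h]
        simp [h]
  rw [hdec]
  refine (norm_add_le _ _).trans ((add_le_add (norm_sub_le _ _) le_rfl).trans ?_)
  simp only [PiLp.norm_single, Real.norm_eq_abs]
  rw [abs_of_nonneg (by positivity), abs_of_nonneg (by positivity)]
  have h2 : (P.r c j : ℝ) * θ ≤ (P.r c j : ℝ) / P.lam := by
    rw [div_eq_mul_one_div]
    exact mul_le_mul_of_nonneg_left h1 (Nat.cast_nonneg _)
  rw [mul_div_assoc]
  linarith

theorem good_off (hP : P.Good L) (s : ℤ) (t : Fin P.N → ℤ) (σ : Fin P.N → ℕ) (c : Fin P.N)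
    (j : ℕ) (hj : j < P.m) (hs : s % ((P.K * P.cw c j : ℕ) : ℤ) < ((P.r c j * P.lam ^ j : ℕ) : ℤ))
    (ht : t c % ((P.K * P.R ^ j : ℕ) : ℤ) < ((P.R ^ j : ℕ) : ℤ)) (a b : ℕ) (ha : a < P.K)
    (hb : b < P.K) (hab : a ≠ b) :
    ∃ i : P.Idx, (P.r c j : ℝ) / 2 ≤
      |P.Phi (s + (a * P.cw c j : ℕ)) (Function.update t c (t c + (b * P.R ^ j : ℕ)))
          (Function.update σ c (j + 1)) i -
        P.Phi (s + (a * P.cw c j : ℕ)) (Function.update t c (t c + (b * P.R ^ j : ℕ)))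
          (Function.update σ c j) i| := by
  obtain ⟨θ, a', h0, h1, hθ⟩ := geomC_data hP s c j hj hs a ha
  have hrow := geomC_row hP (t c) j hj ht b hb
  obtain ⟨hK, hl, hR⟩ := geomC_pos hP (by omega)
  refine ⟨Sum.inr (Sum.inr (Sum.inl (c, ⟨j, hj⟩, ⟨b, hb⟩))), ?_⟩
  rw [geomC_diff _ _ σ c ⟨j, hj⟩]
  have hne : (⟨b, hb⟩ : Fin P.K) ≠ ⟨a, ha⟩ := fun e => hab (Fin.mk.inj e).symm
  simp only [Function.update_self, hrow, hθ, and_self, if_true, if_neg hne]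
  have h2 : θ ≤ 1 / 2 := h1.trans (one_div_le_one_div_of_le (by norm_num) (by exact_mod_cast hl))
  have h3 : (0 : ℝ) ≤ P.r c j := Nat.cast_nonneg _
  refine le_trans ?_ (le_abs_self _)
  split_ifs <;> nlinarith

end Par

end Crest.Agent.R254
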