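import Crest.Agent.R254.GeomA
import Crest.Agent.R254.GeomB
import Crest.Agent.R254.GeomC

/-!
# The tower on a finite group
-/

set_option autoImplicit false

namespace Crest.Agent.R254

namespace Par

open Finset

variable (P : Par)

/-- the finite parameter group -/
abbrev Gr : Type := ZMod P.M × (Fin P.N → ZMod P.W)

/-- shift in `s` -/
def sS (a : ℕ) : P.Gr := ((a : ZMod P.M), 0)

/-- shift in `t c` -/
def sT (c : Fin P.N) (b : ℕ) : P.Gr := (0, Pi.single c (b : ZMod P.W))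

/-- the tower on the group -/
noncomputable def PhiG (σ : Fin P.N → ℕ) (g : P.Gr) : EuclideanSpace ℝ P.Idx :=
  P.Phi (g.1.val : ℤ) (fun c => ((g.2 c).val : ℤ)) σ

variable {P} {L : ℕ}

theorem nsmul_sS (q a : ℕ) : q • P.sS a = P.sS (q * a) := by
  simp [sS]

theorem nsmul_sT (c : Fin P.N) (q b : ℕ) : q • P.sT c b = P.sT c (q * b) := by
  simp only [sT, Prod.smul_mk, smul_zero, Prod.mk.injEq, true_and]
  rw [← Pi.single_smul]
  simp

theorem sS_zero : P.sS 0 = 0 := by simp [sS, Prod.ext_iff]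

theorem sT_zero (c : Fin P.N) : P.sT c 0 = 0 := by simp [sT, Prod.ext_iff]

theorem sS_M : P.sS P.M = 0 := by simp [sS, Prod.ext_iff]

theorem sT_W (c : Fin P.N) : P.sT c P.W = 0 := by simp [sT, Prod.ext_iff]

theorem val_modEq {n : ℕ} [NeZero n] (x : ZMod n) (k : ℤ) (h : (k : ZMod n) = x) :
    (x.val : ℤ) ≡ k [ZMOD n] := by
  rw [← ZMod.intCast_eq_intCast_iff]
  simp [h]

theorem PhiG_shift [NeZero P.M] [NeZero P.W] (hP : P.Good L) (σ : Fin P.N → ℕ) (g : P.Gr)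
    (c : Fin P.N) (a b : ℕ) :
    P.PhiG σ (g + P.sS a + P.sT c b) =
      P.Phi ((g.1.val : ℤ) + a)
        (Function.update (fun c => ((g.2 c).val : ℤ)) c (((g.2 c).val : ℤ) + b)) σ := by
  unfold PhiG
  apply Phi_congr hP
  · apply val_modEq
    simp [sS, sT]
  · intro c'
    apply val_modEq
    by_cases h : c' = c
    · subst h
      simp [sS, sT]
    · simp [sS, sT, Function.update_of_ne h, Pi.single_eq_of_ne h]

theorem PhiG_shift_s [NeZero P.M] [NeZero P.W] (hP : P.Good L) (σ : Fin P.N → ℕ) (g : P.Gr)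
    (a : ℕ) :
    P.PhiG σ (g + P.sS a) = P.Phi ((g.1.val : ℤ) + a) (fun c => ((g.2 c).val : ℤ)) σ := by
  unfold PhiG
  apply Phi_congr hP
  · apply val_modEq
    simp [sS]
  · intro c'
    apply val_modEq
    simp [sS]

theorem PhiG_shift_t [NeZero P.M] [NeZero P.W] (hP : P.Good L) (σ : Fin P.N → ℕ) (g : P.Gr)
    (c : Fin P.N) (b : ℕ) :
    P.PhiG σ (g + P.sT c b) =
      P.Phi (g.1.val : ℤ)
        (Function.update (fun c => ((g.2 c).val : ℤ)) c (((g.2 c).val : ℤ) + b)) σ := by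
  have := PhiG_shift hP σ g c 0 b
  simpa [sS_zero] using this

theorem G_step_s [NeZero P.M] [NeZero P.W] (hP : P.Good L) (σ : Fin P.N → ℕ)
    (hσ : P.cost σ ≤ 2) (g : P.Gr) (a : ℕ) :
    ‖P.PhiG σ (g + P.sS a) - P.PhiG σ g‖ ^ 2 ≤ 5 * (a : ℝ) ^ 2 := by
  rw [PhiG_shift_s hP]
  exact step_s hP _ _ σ hσ a

theorem G_step_s' [NeZero P.M] [NeZero P.W] (hP : P.Good L) (σ : Fin P.N → ℕ)
    (hσ : P.cost σ ≤ 2) (g : P.Gr) (a : ℕ) :
    ‖P.PhiG σ (g + P.sS a) - P.PhiG σ g‖ ≤ 3 * (a : ℝ) := by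
  have h := G_step_s hP σ hσ g a
  have ha : (0 : ℝ) ≤ a := Nat.cast_nonneg a
  apply le_of_sq_le_sq (by nlinarith) (by positivity) |>.trans le_rfl

theorem G_step_t [NeZero P.M] [NeZero P.W] (hP : P.Good L) (σ : Fin P.N → ℕ) (g : P.Gr)
    (c : Fin P.N) (b j : ℕ) (hj : σ c ≤ j + 1) :
    ‖P.PhiG σ (g + P.sT c b) - P.PhiG σ g‖ ≤ (b : ℝ) * P.tau c + 2 * (σ c : ℝ) * P.r c j := by
  rw [PhiG_shift_t hP]
  exact step_t hP _ _ σ c b j hj

/-- the good set at level `(c, j)` -/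
def Gam [NeZero P.M] [NeZero P.W] (c : Fin P.N) (j : ℕ) : Finset P.Gr :=
  univ.filter fun g => g.1.val % (P.K * P.cw c j) < P.r c j * P.lam ^ j ∧
    (g.2 c).val % (P.K * P.R ^ j) < P.R ^ j

theorem shift_aux (y k w : ℕ) (hk : 0 < k) (hw : 0 < w) :
    (y % (k * w)) / w < k ∧ (y % (k * w)) / w * w ≤ y ∧
      (y - (y % (k * w)) / w * w) % (k * w) < w := by
  have hn : 0 < k * w := Nat.mul_pos hk hw
  have h1 : y % (k * w) < k * w := Nat.mod_lt _ hn
  have h2 : (y % (k * w)) / w * w ≤ y % (k * w) := Nat.div_mul_le_self _ _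
  have h3 : y % (k * w) ≤ y := Nat.mod_le _ _
  refine ⟨(Nat.div_lt_iff_lt_mul hw).2 h1, h2.trans h3, ?_⟩
  have h4 : y - (y % (k * w)) / w * w = (y % (k * w)) % w + (k * w) * (y / (k * w)) := by
    have e1 := Nat.mod_add_div y (k * w)
    have e2 := Nat.mod_add_div (y % (k * w)) w
    rw [mul_comm w] at e2
    omega
  rw [h4, Nat.add_mul_mod_self_left]
  exact lt_of_le_of_lt (Nat.mod_le _ _) (Nat.mod_lt _ hw)

theorem card_le_Gam [NeZero P.M] [NeZero P.W] (hK : 0 < P.K) (hl : 0 < P.lam) (hR : 0 < P.R)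
    (c : Fin P.N) (j : ℕ) :
    Fintype.card P.Gr ≤ (P.Gam c j).card * (P.K * P.lam * P.K) := by
  classical
  set w := P.r c j * P.lam ^ j with hw
  have hwpos : 0 < w := by
    rw [hw]; unfold r; positivity
  have hcw : P.K * P.cw c j = (P.K * P.lam) * w := by
    rw [hw]; unfold cw; ring
  have hRj : 0 < P.R ^ j := by positivity
  let i1 : P.Gr → ℕ := fun g => (g.1.val % ((P.K * P.lam) * w)) / w
  let i2 : P.Gr → ℕ := fun g => ((g.2 c).val % (P.K * P.R ^ j)) / P.R ^ j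
  let φ : P.Gr → P.Gr × ℕ × ℕ := fun g =>
    (g - P.sS (i1 g * w) - P.sT c (i2 g * P.R ^ j), i1 g, i2 g)
  have hmap : ∀ g ∈ (univ : Finset P.Gr),
      φ g ∈ (P.Gam c j) ×ˢ (range (P.K * P.lam) ×ˢ range P.K) := by
    intro g _
    obtain ⟨a1, a2, a3⟩ := shift_aux g.1.val (P.K * P.lam) w (Nat.mul_pos hK hl) hwpos
    obtain ⟨b1, b2, b3⟩ := shift_aux (g.2 c).val P.K (P.R ^ j) hK hRj
    simp only [φ, mem_product, mem_range, Gam, mem_filter, mem_univ, true_and]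
    refine ⟨⟨?_, ?_⟩, a1, b1⟩
    · have e : (g - P.sS (i1 g * w) - P.sT c (i2 g * P.R ^ j)).1 =
          ((g.1.val - i1 g * w : ℕ) : ZMod P.M) := by
        rw [Nat.cast_sub (show i1 g * w ≤ g.1.val from a2)]
        simp [sS, sT]
      rw [e, ZMod.val_natCast_of_lt (lt_of_le_of_lt (Nat.sub_le _ _) (ZMod.val_lt _)), hcw]
      exact a3
    · have e : (g - P.sS (i1 g * w) - P.sT c (i2 g * P.R ^ j)).2 c =
          (((g.2 c).val - i2 g * P.R ^ j : ℕ) : ZMod P.W) := by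
        rw [Nat.cast_sub (show i2 g * P.R ^ j ≤ (g.2 c).val from b2)]
        simp [sS, sT]
      rw [e, ZMod.val_natCast_of_lt (lt_of_le_of_lt (Nat.sub_le _ _) (ZMod.val_lt _))]
      exact b3
  have hinj : Set.InjOn φ (univ : Finset P.Gr) := by
    intro g _ g' _ h
    simp only [φ, Prod.mk.injEq] at h
    obtain ⟨h1, h2, h3⟩ := h
    rw [h2, h3] at h1
    simpa using h1
  have := Finset.card_le_card_of_injOn φ hmap hinj
  simpa [card_product, mul_assoc] using this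

end Par

end Crest.Agent.R254
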