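import Crest.Agent.R254.Key
import Crest.Agent.R254.GameAux

/-!
# The energy game
-/

set_option autoImplicit false

namespace Crest.Agent.R254

namespace Par

open Finset

variable {P : Par} {L : ℕ} {E : Type} [NormedAddCommGroup E]

/-- The data of a shadowing map on the finite group. -/
structure Shadow (P : Par) (L : ℕ) (F : (Fin P.N → ℕ) → P.Gr → E) : Prop where
  up : ∀ σ σ', P.cost σ ≤ 2 → P.cost σ' ≤ 2 → ∀ g g',
    ‖F σ g - F σ' g'‖ ≤ L * ‖P.PhiG σ g - P.PhiG σ' g'‖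
  low : ∀ σ σ', P.cost σ ≤ 2 → P.cost σ' ≤ 2 → ∀ g g' i,
    |P.PhiG σ g i - P.PhiG σ' g' i| ≤ ‖F σ g - F σ' g'‖

/-- normalised energy in direction `s` -/
noncomputable def EA [NeZero P.M] [NeZero P.W] (F : P.Gr → E) (l : ℕ) : ℝ :=
  En F (P.sS l) / (Fintype.card P.Gr * (l : ℝ) ^ 2)

/-- normalised energy in direction `t c` -/
noncomputable def EB [NeZero P.M] [NeZero P.W] (F : P.Gr → E) (c : Fin P.N) (i : ℕ) : ℝ :=
  En F (P.sT c (P.R ^ i)) / (Fintype.card P.Gr * (P.r c i : ℝ) ^ 2)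

/-- the gain constant -/
noncomputable def g0 (P : Par) : ℝ := 1 / (20000 * (P.K : ℝ) ^ 6 * P.lam)

theorem Good.lam_ge (hP : P.Good L) : 800000 * L ^ 2 ≤ P.lam := by
  have h1 := hP.hlam
  have h2 : 1 ≤ P.K ^ 6 := Nat.one_le_pow _ _ hP.hK
  nlinarith [Nat.zero_le (L ^ 2)]

theorem Good.lam_two (hP : P.Good L) : 2 ≤ P.lam := by
  have h1 := hP.lam_ge
  have h2 : 1 ≤ L ^ 2 := Nat.one_le_pow _ _ hP.hL
  omega

theorem Good.R_pos (hP : P.Good L) : 0 < P.R := by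
  have h := hP.hR4
  have h2 := hP.lam_two
  have : 0 < 100 * P.lam * (P.N + 1) * (P.m + 1) := by positivity
  omega

theorem Good.r_pos (hP : P.Good L) (c i : ℕ) : 0 < P.r c i := by
  have := hP.R_pos
  unfold r; positivity

theorem Good.tau_pos (hP : P.Good L) (c : ℕ) : 0 < P.tau c := by
  have := hP.R_pos
  unfold tau; positivity

theorem Good.g0_pos (hP : P.Good L) : 0 < P.g0 := by
  have h1 : (0 : ℝ) < P.K := by exact_mod_cast hP.hK
  have h2 : (0 : ℝ) < P.lam := by have := hP.lam_two; positivity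
  unfold g0; positivity

theorem r_eq (c i : ℕ) : P.r c i = P.R ^ i * P.tau c := by
  unfold r tau; ring

theorem r_succ (c i : ℕ) : P.r c (i + 1) = P.R * P.r c i := by
  unfold r; ring

theorem tau_succ (c : ℕ) : P.tau (c + 1) = P.R * P.r c P.m := by
  unfold r tau; ring

theorem Good.exists_Q (hP : P.Good L) (c j : ℕ) (hj : j < P.m) :
    ∃ Q : ℕ, Q * P.cw c j = P.tau (c + 1) ∧ P.R ≤ Q := by
  obtain ⟨X, hX⟩ := hP.hdvd
  obtain ⟨d, hd⟩ : ∃ d, P.m = j + 1 + d := ⟨P.m - (j + 1), by omega⟩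
  have hR := hP.R_pos
  have hXpos : 0 < X := by
    rcases Nat.eq_zero_or_pos X with h | h
    · rw [h] at hX; omega
    · exact h
  have hl := hP.lam_two
  have hK := hP.hK
  refine ⟨P.R ^ (d + 1) * (P.K * P.lam ^ d * X), ?_, ?_⟩
  · have e1 : P.K * P.lam ^ d * X * P.lam ^ (j + 1) = P.R := by
      rw [hX, hd]; ring
    have e2 : P.tau (c + 1) = P.R ^ (d + 1) * P.r c j * P.R := by
      unfold tau r
      rw [← pow_add, ← pow_succ]
      congr 1
      rw [hd]; ring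
    rw [e2]
    unfold cw
    calc P.R ^ (d + 1) * (P.K * P.lam ^ d * X) * (P.r c j * P.lam ^ (j + 1))
        = P.R ^ (d + 1) * P.r c j * (P.K * P.lam ^ d * X * P.lam ^ (j + 1)) := by ring
      _ = _ := by rw [e1]
  · have h1 : P.R ≤ P.R ^ (d + 1) := Nat.le_self_pow (by omega) _
    have h2 : 0 < P.K * P.lam ^ d * X := by positivity
    nlinarith

theorem cost_le_two (hP : P.Good L) {σ : Fin P.N → ℕ} {c : Fin P.N} (hc : σ c = P.m)
    (hσ : P.cost σ ≤ 1) (j : ℕ) : P.cost (Function.update σ c j) ≤ 2 := by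
  have h := cost_update hP σ c hc j
  have hl : (2 : ℝ) ≤ P.lam := by exact_mod_cast hP.lam_two
  have h1 : (2 : ℝ) ≤ (P.lam : ℝ) ^ (j + 1) := by
    calc (2 : ℝ) ≤ P.lam := hl
      _ ≤ (P.lam : ℝ) ^ (j + 1) := le_self_pow₀ (by linarith) (by omega)
  have h2 : 1 / (P.lam : ℝ) ^ (j + 1) ≤ 1 / 2 := one_div_le_one_div_of_le (by norm_num) h1
  have h3 : 0 ≤ 1 / (P.lam : ℝ) ^ (j + 1) := by positivity
  nlinarith

section

variable [NeZero P.M] [NeZero P.W]

theorem card_pos' : (0 : ℝ) < Fintype.card P.Gr := by exact_mod_cast Fintype.card_pos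

theorem level_ineq [InnerProductSpace ℝ E] (hP : P.Good L) (hNP : NoPack E P.K (16 * L))
    {F : (Fin P.N → ℕ) → P.Gr → E} (hF : Shadow P L F) {σ : Fin P.N → ℕ} {c : Fin P.N}
    (hc : σ c = P.m) (hσ : P.cost σ ≤ 1) (j : ℕ) (hj : j < P.m) :
    P.g0 ≤ ((P.lam : ℝ) ^ (j + 1)) ^ 2 *
        (EA (F (Function.update σ c (j + 1))) (P.cw c j) -
          EA (F (Function.update σ c (j + 1))) (P.tau (c + 1))) +
      (EB (F (Function.update σ c j)) c j - EB (F (Function.update σ c j)) c (j + 1)) := by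
  obtain ⟨Q, hQ, hRQ⟩ := hP.exists_Q c j hj
  have h1 := cost_le_two hP hc hσ (j + 1)
  have h0 := cost_le_two hP hc hσ j
  set σ1 := Function.update σ c (j + 1) with hσ1
  set σ0 := Function.update σ c j with hσ0
  have hLr : (1 : ℝ) ≤ L := by exact_mod_cast hP.hL
  have hKr : (1 : ℝ) ≤ P.K := by exact_mod_cast hP.hK
  have hr : (0 : ℝ) < P.r c j := by exact_mod_cast hP.r_pos c j
  have hlam : (800000 : ℝ) * (L : ℝ) ^ 2 ≤ P.lam := by exact_mod_cast hP.lam_ge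
  have hlam2 : (2 : ℝ) ≤ P.lam := by exact_mod_cast hP.lam_two
  have h2K : 2 * P.K ≤ P.R := by
    have := hP.hR1
    have hK := hP.hK
    have hL := hP.hL
    have : 200 * P.K * 1 * 1 ≤ 200 * P.K * L * (P.K + 2 * P.m) := by gcongr; omega
    omega
  have key := key_ineq (L := (L : ℝ)) (r := (P.r c j : ℝ)) hNP hP.hK hLr hr (F σ1) (F σ0)
    (P.sS (P.cw c j)) (P.sT c (P.R ^ j)) Q P.R (h2K.trans hRQ) h2K (P.Gam c j) ?_ ?_ ?_ ?_ ?_
  rotate_left
  · intro g hg a ha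
    simp only [Gam, mem_filter, mem_univ, true_and] at hg
    refine (hF.up σ1 σ0 h1 h0 _ _).trans ?_
    rw [nsmul_sS, nsmul_sT, PhiG_shift hP, PhiG_shift hP]
    have := good_diag hP (g.1.val : ℤ) (fun c => ((g.2 c).val : ℤ)) σ c j hj
      (by exact_mod_cast hg.1) (by exact_mod_cast hg.2) a ha
    refine (mul_le_mul_of_nonneg_left this (by linarith)).trans ?_
    rw [← mul_div_assoc, div_le_div_iff₀ (by linarith) (by norm_num)]
    have : (300 : ℝ) * L ≤ P.lam := by nlinarith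
    nlinarith
  · intro g hg a ha b hb hab
    simp only [Gam, mem_filter, mem_univ, true_and] at hg
    obtain ⟨i, hi⟩ := good_off hP (g.1.val : ℤ) (fun c => ((g.2 c).val : ℤ)) σ c j hj
      (by exact_mod_cast hg.1) (by exact_mod_cast hg.2) a b ha hb hab
    refine le_trans ?_ (hF.low σ1 σ0 h1 h0 _ _ i)
    rw [nsmul_sS, nsmul_sT, PhiG_shift hP, PhiG_shift hP]
    exact hi
  · intro g
    refine (hF.up σ1 σ0 h1 h0 _ _).trans ?_
    have := sheet_succ hP (g.1.val : ℤ) (fun c => ((g.2 c).val : ℤ)) σ c j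
    refine (mul_le_mul_of_nonneg_left this (by linarith)).trans (le_of_eq ?_)
    ring
  · intro g b hb
    have e1 := hF.up σ1 σ1 h1 h1 (g + b • P.sT c (P.R ^ j)) g
    rw [nsmul_sT] at e1 ⊢
    have e2 := G_step_t hP σ1 g c (b * P.R ^ j) j (by simp [hσ1])
    have e3 : (σ1 c : ℝ) ≤ P.m := by
      simp only [hσ1, Function.update_self]
      exact_mod_cast hj
    have e4 : ((b * P.R ^ j : ℕ) : ℝ) * P.tau c = b * P.r c j := by
      rw [r_eq]; push_cast; ring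
    have hb' : (b : ℝ) ≤ P.K := by exact_mod_cast hb.le
    have e5 : ‖P.PhiG σ1 (g + P.sT c (b * P.R ^ j)) - P.PhiG σ1 g‖ ≤
        (P.K + 2 * P.m) * (P.r c j : ℝ) := by
      rw [e4] at e2
      nlinarith
    have e6 : (200 : ℝ) * P.K * L * (P.K + 2 * P.m) ≤ Q := by
      exact_mod_cast hP.hR1.trans hRQ
    calc 200 * (P.K : ℝ) * ‖F σ1 (g + P.sT c (b * P.R ^ j)) - F σ1 g‖
        ≤ 200 * P.K * (L * ((P.K + 2 * P.m) * (P.r c j : ℝ))) := by
          gcongr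
          exact e1.trans (mul_le_mul_of_nonneg_left e5 (by linarith))
      _ = (200 * P.K * L * (P.K + 2 * P.m)) * (P.r c j : ℝ) := by ring
      _ ≤ Q * (P.r c j : ℝ) := by gcongr
  · intro g a ha
    have e1 := hF.up σ0 σ0 h0 h0 (g + a • P.sS (P.cw c j)) g
    rw [nsmul_sS] at e1 ⊢
    have e2 := G_step_s' hP σ0 h0 g (a * P.cw c j)
    have ha' : (a : ℝ) ≤ P.K := by exact_mod_cast ha.le
    have e3 : ((a * P.cw c j : ℕ) : ℝ) ≤ P.K * (P.r c j * (P.lam : ℝ) ^ P.m) := by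
      unfold cw
      push_cast
      gcongr
      · linarith
      · omega
    have e6 : (600 : ℝ) * (P.K : ℝ) ^ 2 * L * (P.lam : ℝ) ^ P.m ≤ P.R := by
      exact_mod_cast hP.hR2
    calc 200 * (P.K : ℝ) * ‖F σ0 (g + P.sS (a * P.cw c j)) - F σ0 g‖
        ≤ 200 * P.K * (L * (3 * (P.K * (P.r c j * (P.lam : ℝ) ^ P.m)))) := by
          gcongr
          refine e1.trans (mul_le_mul_of_nonneg_left (e2.trans ?_) (by linarith))
          linarith
      _ = (600 * (P.K : ℝ) ^ 2 * L * (P.lam : ℝ) ^ P.m) * (P.r c j : ℝ) := by ring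
      _ ≤ P.R * (P.r c j : ℝ) := by gcongr
  · rw [nsmul_sS, nsmul_sT, hQ, ← pow_succ'] at key
    have hcard : (Fintype.card P.Gr : ℝ) ≤ (P.Gam c j).card * (P.K * P.lam * P.K) := by
      exact_mod_cast card_le_Gam hP.hK (by have := hP.lam_two; omega) hP.R_pos c j
    have hn := card_pos' (P := P)
    set n : ℝ := ((Fintype.card P.Gr : ℕ) : ℝ) with hn'
    have hRr : (0 : ℝ) < P.R := by exact_mod_cast hP.R_pos
    have hQr : (0 : ℝ) < Q := by exact_mod_cast hP.R_pos.trans_le hRQ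
    have htau : (P.tau (c + 1) : ℝ) = Q * (P.r c j * (P.lam : ℝ) ^ (j + 1)) := by
      rw [← hQ]; unfold cw; push_cast; ring
    have hcw : (P.cw c j : ℝ) = P.r c j * (P.lam : ℝ) ^ (j + 1) := by
      unfold cw; push_cast; ring
    have hr1 : (P.r c (j + 1) : ℝ) = P.R * P.r c j := by rw [r_succ]; push_cast; ring
    have hlp : (0 : ℝ) < (P.lam : ℝ) ^ (j + 1) := by positivity
    have eq1 : ((P.lam : ℝ) ^ (j + 1)) ^ 2 * (EA (F σ1) (P.cw c j) - EA (F σ1) (P.tau (c + 1))) +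
        (EB (F σ0) c j - EB (F σ0) c (j + 1)) =
        ((En (F σ1) (P.sS (P.cw c j)) - En (F σ1) (P.sS (P.tau (c + 1))) / (Q : ℝ) ^ 2) +
          (En (F σ0) (P.sT c (P.R ^ j)) - En (F σ0) (P.sT c (P.R ^ (j + 1))) / (P.R : ℝ) ^ 2)) /
          (n * (P.r c j : ℝ) ^ 2) := by
      unfold EA EB
      rw [← hn', htau, hcw, hr1]
      field_simp
    rw [eq1, le_div_iff₀ (by positivity)]
    refine le_trans ?_ key
    unfold g0
    rw [le_div_iff₀ (by positivity)]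
    have : 1 / (20000 * (P.K : ℝ) ^ 6 * P.lam) * (n * (P.r c j : ℝ) ^ 2) *
        (20000 * (P.K : ℝ) ^ 4) = (P.r c j : ℝ) ^ 2 * (n / (P.K * P.lam * P.K)) := by
      field_simp
    rw [this]
    gcongr
    rw [div_le_iff₀ (by positivity)]
    exact hcard

theorem EA_mono (F : P.Gr → E) (l q : ℕ) (hl : 0 < l) (hq : 0 < q) :
    EA F (q * l) ≤ EA F l := by
  unfold EA
  have h := En_nsmul_le F (P.sS l) q
  rw [nsmul_sS] at h
  have hn := card_pos' (P := P)
  have hl' : (0 : ℝ) < l := by exact_mod_cast hl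
  have hq' : (0 : ℝ) < q := by exact_mod_cast hq
  rw [div_le_div_iff₀ (by positivity) (by positivity)]
  push_cast
  calc En F (P.sS (q * l)) * ((Fintype.card P.Gr : ℝ) * (l : ℝ) ^ 2)
      ≤ ((q : ℝ) ^ 2 * En F (P.sS l)) * ((Fintype.card P.Gr : ℝ) * (l : ℝ) ^ 2) := by gcongr
    _ = _ := by ring

theorem EA_le (hP : P.Good L) {F : (Fin P.N → ℕ) → P.Gr → E} (hF : Shadow P L F)
    {σ : Fin P.N → ℕ} (hσ : P.cost σ ≤ 2) (l : ℕ) (hl : 0 < l) :
    EA (F σ) l ≤ 5 * (L : ℝ) ^ 2 := by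
  unfold EA
  have hn := card_pos' (P := P)
  have hl' : (0 : ℝ) < l := by exact_mod_cast hl
  have h := En_le (F σ) (P.sS l) ((L : ℝ) ^ 2 * (5 * (l : ℝ) ^ 2)) (fun g => by
    have e1 := hF.up σ σ hσ hσ (g + P.sS l) g
    have e2 := G_step_s hP σ hσ g l
    calc ‖F σ (g + P.sS l) - F σ g‖ ^ 2
        ≤ (L * ‖P.PhiG σ (g + P.sS l) - P.PhiG σ g‖) ^ 2 := by gcongr
      _ = (L : ℝ) ^ 2 * ‖P.PhiG σ (g + P.sS l) - P.PhiG σ g‖ ^ 2 := by ring
      _ ≤ _ := by gcongr)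
  rw [div_le_iff₀ (by positivity)]
  refine h.trans (le_of_eq ?_)
  ring

theorem EB_top (F : P.Gr → E) (c : Fin P.N) : EB F c P.m = 0 := by
  unfold EB
  have : P.sT c (P.R ^ P.m) = 0 := sT_W c
  rw [this, En_zero, zero_div]

theorem EB_bot (hP : P.Good L) {F : (Fin P.N → ℕ) → P.Gr → E} (hF : Shadow P L F)
    {σ : Fin P.N → ℕ} (hσ : P.cost σ ≤ 2) (c : Fin P.N) (hc : σ c = 0) :
    EB (F σ) c 0 ≤ (L : ℝ) ^ 2 := by
  unfold EB
  have hn := card_pos' (P := P)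
  have hr : (0 : ℝ) < P.r c 0 := by exact_mod_cast hP.r_pos c 0
  have h := En_le (F σ) (P.sT c (P.R ^ 0)) ((L : ℝ) ^ 2 * (P.r c 0 : ℝ) ^ 2) (fun g => by
    have e1 := hF.up σ σ hσ hσ (g + P.sT c (P.R ^ 0)) g
    have e2 := G_step_t hP σ g c (P.R ^ 0) 0 (by omega)
    have e3 : ((P.R ^ 0 : ℕ) : ℝ) * P.tau c + 2 * (σ c : ℝ) * P.r c 0 = P.r c 0 := by
      rw [hc, r_eq]; simp
    rw [e3] at e2
    calc ‖F σ (g + P.sT c (P.R ^ 0)) - F σ g‖ ^ 2
        ≤ (L * (P.r c 0 : ℝ)) ^ 2 := by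
          gcongr
          exact e1.trans (mul_le_mul_of_nonneg_left e2 (Nat.cast_nonneg L))
      _ = _ := by ring)
  rw [div_le_iff₀ (by positivity)]
  refine h.trans (le_of_eq ?_)
  ring

theorem EB_pert (hP : P.Good L) {F : (Fin P.N → ℕ) → P.Gr → E} (hF : Shadow P L F)
    {σ : Fin P.N → ℕ} {c : Fin P.N} (hc : σ c = P.m) (hσ : P.cost σ ≤ 1) (j : ℕ) (hj : j < P.m) :
    EB (F (Function.update σ c (j + 1))) c (j + 1) - P.g0 / 4 ≤
      EB (F (Function.update σ c j)) c (j + 1) := by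
  have h1 := cost_le_two hP hc hσ (j + 1)
  have h0 := cost_le_two hP hc hσ j
  set σ1 := Function.update σ c (j + 1) with hσ1
  set σ0 := Function.update σ c j with hσ0
  have hLr : (1 : ℝ) ≤ L := by exact_mod_cast hP.hL
  have hKr : (1 : ℝ) ≤ P.K := by exact_mod_cast hP.hK
  have hr : (0 : ℝ) < P.r c j := by exact_mod_cast hP.r_pos c j
  have hRr : (0 : ℝ) < P.R := by exact_mod_cast hP.R_pos
  have hlam2 : (2 : ℝ) ≤ P.lam := by exact_mod_cast hP.lam_two
  have hr1 : (P.r c (j + 1) : ℝ) = P.R * P.r c j := by rw [r_succ]; push_cast; ring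
  have h2m : (2 : ℝ) * P.m ≤ P.R := by
    have := hP.hR1
    have hK := hP.hK
    have hL := hP.hL
    have : 1 * 1 * 1 * (2 * P.m) ≤ 200 * P.K * L * (P.K + 2 * P.m) := by gcongr <;> omega
    exact_mod_cast (by omega : 2 * P.m ≤ P.R)
  have h := En_pert (F σ1) (F σ0) (P.sT c (P.R ^ (j + 1))) (L * (3 * P.r c j))
    (L * (2 * (P.R * P.r c j))) (fun g => by
      refine (hF.up σ1 σ0 h1 h0 _ _).trans ?_
      have := sheet_succ hP (g.1.val : ℤ) (fun c => ((g.2 c).val : ℤ)) σ c j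
      exact mul_le_mul_of_nonneg_left this (by linarith)) (fun g => by
      refine (hF.up σ1 σ1 h1 h1 _ _).trans (mul_le_mul_of_nonneg_left ?_ (by linarith))
      have e2 := G_step_t hP σ1 g c (P.R ^ (j + 1)) j (by simp [hσ1])
      have e3 : (σ1 c : ℝ) ≤ P.m := by
        simp only [hσ1, Function.update_self]
        exact_mod_cast hj
      have e4 : ((P.R ^ (j + 1) : ℕ) : ℝ) * P.tau c = P.R * P.r c j := by
        rw [r_eq]; push_cast; ring
      rw [e4] at e2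
      nlinarith)
  have hn := card_pos' (P := P)
  unfold EB
  set n : ℝ := ((Fintype.card P.Gr : ℕ) : ℝ) with hn'
  rw [hr1]
  have hm1 : (1 : ℝ) ≤ P.m := by exact_mod_cast (by omega : 1 ≤ P.m)
  have hR3 : (2880000 : ℝ) * P.m * (L : ℝ) ^ 2 * (P.K : ℝ) ^ 6 * P.lam * (P.lam : ℝ) ^ (2 * P.m)
      ≤ P.R := by exact_mod_cast hP.hR3
  have hl1 : (1 : ℝ) ≤ (P.lam : ℝ) ^ (2 * P.m) := one_le_pow₀ (by linarith)
  have herr : 24 * (L : ℝ) ^ 2 / P.R ≤ P.g0 / 4 := by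
    unfold g0
    rw [div_div, div_le_div_iff₀ hRr (by positivity)]
    calc 24 * (L : ℝ) ^ 2 * (20000 * (P.K : ℝ) ^ 6 * P.lam * 4)
        = 1920000 * 1 * (L : ℝ) ^ 2 * (P.K : ℝ) ^ 6 * P.lam * 1 := by ring
      _ ≤ 2880000 * P.m * (L : ℝ) ^ 2 * (P.K : ℝ) ^ 6 * P.lam * (P.lam : ℝ) ^ (2 * P.m) := by
        gcongr; norm_num
      _ ≤ 1 * P.R := by linarith
  have e : En (F σ1) (P.sT c (P.R ^ (j + 1))) / (n * (P.R * (P.r c j : ℝ)) ^ 2) -
      24 * (L : ℝ) ^ 2 / P.R = (En (F σ1) (P.sT c (P.R ^ (j + 1))) -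
        4 * (L * (3 * (P.r c j : ℝ))) * (L * (2 * (P.R * (P.r c j : ℝ)))) * n) /
          (n * (P.R * (P.r c j : ℝ)) ^ 2) := by
    field_simp
    ring
  calc _ ≤ En (F σ1) (P.sT c (P.R ^ (j + 1))) / (n * (P.R * (P.r c j : ℝ)) ^ 2) -
      24 * (L : ℝ) ^ 2 / P.R := by linarith
    _ = _ := e
    _ ≤ _ := by gcongr

theorem EA_pert (hP : P.Good L) {F : (Fin P.N → ℕ) → P.Gr → E} (hF : Shadow P L F)
    {σ : Fin P.N → ℕ} {c : Fin P.N} (hc : σ c = P.m) (hσ : P.cost σ ≤ 1) (j : ℕ) :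
    EA (F σ) (P.tau (c + 1)) - P.g0 / 4 * (1 / (P.lam : ℝ) ^ P.m) ^ 2 ≤
      EA (F (Function.update σ c j)) (P.tau (c + 1)) := by
  have h0 := cost_le_two hP hc hσ j
  have h1 : P.cost σ ≤ 2 := by linarith
  set σ0 := Function.update σ c j with hσ0
  have hLr : (1 : ℝ) ≤ L := by exact_mod_cast hP.hL
  have hKr : (1 : ℝ) ≤ P.K := by exact_mod_cast hP.hK
  have hr : (0 : ℝ) < P.r c P.m := by exact_mod_cast hP.r_pos c P.m
  have hRr : (0 : ℝ) < P.R := by exact_mod_cast hP.R_pos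
  have hlam2 : (2 : ℝ) ≤ P.lam := by exact_mod_cast hP.lam_two
  have ht : (P.tau (c + 1) : ℝ) = P.R * P.r c P.m := by rw [tau_succ]; push_cast; ring
  have h := En_pert (F σ) (F σ0) (P.sS (P.tau (c + 1))) (L * (3 * P.m * P.r c P.m))
    (L * (3 * (P.tau (c + 1) : ℝ))) (fun g => by
      refine (hF.up σ σ0 h1 h0 _ _).trans ?_
      have := sheet_any hP (g.1.val : ℤ) (fun c => ((g.2 c).val : ℤ)) σ c j
      exact mul_le_mul_of_nonneg_left this (by linarith)) (fun g => by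
      refine (hF.up σ σ h1 h1 _ _).trans (mul_le_mul_of_nonneg_left ?_ (by linarith))
      exact G_step_s' hP σ h1 g _)
  have hn := card_pos' (P := P)
  unfold EA
  set n : ℝ := ((Fintype.card P.Gr : ℕ) : ℝ) with hn'
  rw [ht] at h ⊢
  have hR3 : (2880000 : ℝ) * P.m * (L : ℝ) ^ 2 * (P.K : ℝ) ^ 6 * P.lam * (P.lam : ℝ) ^ (2 * P.m)
      ≤ P.R := by exact_mod_cast hP.hR3
  have herr : 36 * P.m * (L : ℝ) ^ 2 / P.R ≤ P.g0 / 4 * (1 / (P.lam : ℝ) ^ P.m) ^ 2 := by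
    have : P.g0 / 4 * (1 / (P.lam : ℝ) ^ P.m) ^ 2 =
        1 / (80000 * (P.K : ℝ) ^ 6 * P.lam * (P.lam : ℝ) ^ (2 * P.m)) := by
      unfold g0
      rw [mul_comm 2 P.m, pow_mul]
      field_simp
      ring
    rw [this, div_le_div_iff₀ hRr (by positivity)]
    calc 36 * P.m * (L : ℝ) ^ 2 * (80000 * (P.K : ℝ) ^ 6 * P.lam * (P.lam : ℝ) ^ (2 * P.m))
        = 2880000 * P.m * (L : ℝ) ^ 2 * (P.K : ℝ) ^ 6 * P.lam * (P.lam : ℝ) ^ (2 * P.m) := by ring
      _ ≤ 1 * (P.R : ℝ) := by linarith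
  have e : En (F σ) (P.sS (P.tau (c + 1))) / (n * (P.R * (P.r c P.m : ℝ)) ^ 2) -
      36 * P.m * (L : ℝ) ^ 2 / P.R = (En (F σ) (P.sS (P.tau (c + 1))) -
        4 * (L * (3 * P.m * (P.r c P.m : ℝ))) * (L * (3 * (P.R * (P.r c P.m : ℝ)))) * n) /
          (n * (P.R * (P.r c P.m : ℝ)) ^ 2) := by
    field_simp
    ring
  calc _ ≤ En (F σ) (P.sS (P.tau (c + 1))) / (n * (P.R * (P.r c P.m : ℝ)) ^ 2) -
      36 * P.m * (L : ℝ) ^ 2 / P.R := by linarith
    _ = _ := e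
    _ ≤ _ := by gcongr

theorem cycle_step [InnerProductSpace ℝ E] (hP : P.Good L) (hNP : NoPack E P.K (16 * L))
    {F : (Fin P.N → ℕ) → P.Gr → E} (hF : Shadow P L F) {σ : Fin P.N → ℕ} {c : Fin P.N}
    (hc : σ c = P.m) (hσ : P.cost σ ≤ 1) :
    ∃ j < P.m, EA (F σ) (P.tau (c + 1)) + P.g0 / 4 * (1 / (P.lam : ℝ) ^ (j + 1)) ^ 2 ≤
      EA (F (Function.update σ c (j + 1))) (P.tau c) := by
  by_contra hcon
  push Not at hcon
  have hlam2 : (2 : ℝ) ≤ P.lam := by exact_mod_cast hP.lam_two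
  have hg := hP.g0_pos
  have hstep : ∀ j < P.m, EB (F (Function.update σ c (j + 1))) c (j + 1) + P.g0 / 4 ≤
      EB (F (Function.update σ c j)) c j := by
    intro j hj
    have a1 := hcon j hj
    have a2 := level_ineq hP hNP hF hc hσ j hj
    have a3 := EB_pert hP hF hc hσ j hj
    have a4 := EA_pert hP hF hc hσ (j + 1)
    have a5 : EA (F (Function.update σ c (j + 1))) (P.cw c j) ≤
        EA (F (Function.update σ c (j + 1))) (P.tau c) := by
      have : P.cw c j = (P.R ^ j * P.lam ^ (j + 1)) * P.tau c := by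
        unfold cw; rw [r_eq]; ring
      rw [this]
      have hR := hP.R_pos
      have hl := hP.lam_two
      exact EA_mono _ _ _ (hP.tau_pos c) (by positivity)
    have hlp : (0 : ℝ) < (P.lam : ℝ) ^ (j + 1) := by positivity
    have a6 : (1 / (P.lam : ℝ) ^ P.m) ^ 2 ≤ (1 / (P.lam : ℝ) ^ (j + 1)) ^ 2 := by
      gcongr
      · linarith
      · omega
    have a7 : EA (F (Function.update σ c (j + 1))) (P.cw c j) -
        EA (F (Function.update σ c (j + 1))) (P.tau (c + 1)) ≤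
        P.g0 / 2 * (1 / (P.lam : ℝ) ^ (j + 1)) ^ 2 := by
      nlinarith
    have a8 : ((P.lam : ℝ) ^ (j + 1)) ^ 2 * (EA (F (Function.update σ c (j + 1))) (P.cw c j) -
        EA (F (Function.update σ c (j + 1))) (P.tau (c + 1))) ≤ P.g0 / 2 := by
      calc _ ≤ ((P.lam : ℝ) ^ (j + 1)) ^ 2 * (P.g0 / 2 * (1 / (P.lam : ℝ) ^ (j + 1)) ^ 2) := by
            gcongr
        _ = P.g0 / 2 := by field_simp
    linarith
  have hind : ∀ d ≤ P.m, d * (P.g0 / 4) ≤ EB (F (Function.update σ c (P.m - d))) c (P.m - d) := by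
    intro d
    induction d with
    | zero => intro _; simp [EB_top]
    | succ d ih =>
      intro hd
      have h1 := ih (by omega)
      have h2 := hstep (P.m - (d + 1)) (by omega)
      rw [show P.m - (d + 1) + 1 = P.m - d by omega] at h2
      push_cast
      linarith
  have h1 := hind P.m le_rfl
  rw [Nat.sub_self] at h1
  have h2 := EB_bot hP hF (cost_le_two hP hc hσ 0) c (by simp)
  have h3 : (80000 : ℝ) * (L : ℝ) ^ 2 * (P.K : ℝ) ^ 6 * P.lam < P.m := by exact_mod_cast hP.hm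
  have hKr : (1 : ℝ) ≤ P.K := by exact_mod_cast hP.hK
  have h4 : (L : ℝ) ^ 2 < P.m * (P.g0 / 4) := by
    unfold g0
    rw [div_div, mul_one_div, lt_div_iff₀ (by positivity)]
    linarith
  linarith

theorem game [InnerProductSpace ℝ E] (hP : P.Good L) (hNP : NoPack E P.K (16 * L))
    {F : (Fin P.N → ℕ) → P.Gr → E} (hF : Shadow P L F) : False := by
  have hlam2 : (2 : ℝ) ≤ P.lam := by exact_mod_cast hP.lam_two
  have hKr : (1 : ℝ) ≤ P.K := by exact_mod_cast hP.hK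
  have hg := hP.g0_pos
  have hind : ∀ d ≤ P.N, ∃ (σ : Fin P.N → ℕ) (S : ℝ), (∀ c : Fin P.N, (c : ℕ) < P.N - d → σ c = P.m) ∧
      d * (1 / (P.lam : ℝ) ^ P.m) ^ 2 ≤ S ∧ P.g0 / 4 * S ≤ EA (F σ) (P.tau (P.N - d)) ∧
      P.cost σ ≤ 2 * (1 / (P.lam : ℝ)) ^ 2 * S ∧ P.cost σ ≤ 1 := by
    intro d
    induction d with
    | zero =>
      intro _
      refine ⟨fun _ => P.m, 0, fun _ _ => rfl, by simp, ?_, by simp [cost_default],
        by simp [cost_default]⟩
      have : P.sS (P.tau (P.N - 0)) = 0 := sS_M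
      unfold EA
      rw [this, En_zero]
      simp
    | succ d ih =>
      intro hd
      obtain ⟨σ, S, h1, h2, h3, h4, h5⟩ := ih (by omega)
      let c : Fin P.N := ⟨P.N - (d + 1), by omega⟩
      have hc : σ c = P.m := h1 c (by simp only [c]; omega)
      obtain ⟨j, hj, hstep⟩ := cycle_step hP hNP hF hc h5
      have hc1 : (c : ℕ) + 1 = P.N - d := by simp only [c]; omega
      rw [hc1] at hstep
      have hcost := cost_update hP σ c hc (j + 1)
      have hcost2 := cost_le_two hP hc h5 (j + 1)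
      have hx : (1 / (P.lam : ℝ) ^ P.m) ^ 2 ≤ (1 / (P.lam : ℝ) ^ (j + 1)) ^ 2 := by
        gcongr
        · linarith
        · omega
      have hA : P.g0 / 4 * (S + (1 / (P.lam : ℝ) ^ (j + 1)) ^ 2) ≤
          EA (F (Function.update σ c (j + 1))) (P.tau c) := by linarith
      have hC : P.cost (Function.update σ c (j + 1)) ≤
          2 * (1 / (P.lam : ℝ)) ^ 2 * (S + (1 / (P.lam : ℝ) ^ (j + 1)) ^ 2) := by
        have : (1 / (P.lam : ℝ) ^ (j + 1 + 1)) ^ 2 =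
            (1 / (P.lam : ℝ)) ^ 2 * (1 / (P.lam : ℝ) ^ (j + 1)) ^ 2 := by
          field_simp
          ring
        rw [this] at hcost
        linarith
      refine ⟨Function.update σ c (j + 1), S + (1 / (P.lam : ℝ) ^ (j + 1)) ^ 2, ?_, ?_, hA, hC, ?_⟩
      · intro c' hc'
        have hne : c' ≠ c := by
          intro h
          rw [h] at hc'
          simp only [c] at hc'
          omega
        rw [Function.update_of_ne hne]
        exact h1 c' (by omega)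
      · push_cast
        linarith
      · have hup := EA_le hP hF hcost2 (P.tau c) (hP.tau_pos c)
        set S' := S + (1 / (P.lam : ℝ) ^ (j + 1)) ^ 2
        have hS' : S' ≤ 400000 * (L : ℝ) ^ 2 * (P.K : ℝ) ^ 6 * P.lam := by
          have h := hA.trans hup
          unfold g0 at h
          rw [div_div, one_div, inv_mul_le_iff₀ (by positivity)] at h
          linarith
        have hl : (800000 : ℝ) * (L : ℝ) ^ 2 * (P.K : ℝ) ^ 6 ≤ P.lam := by exact_mod_cast hP.hlam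
        refine hC.trans ?_
        calc 2 * (1 / (P.lam : ℝ)) ^ 2 * S'
            ≤ 2 * (1 / (P.lam : ℝ)) ^ 2 * (400000 * (L : ℝ) ^ 2 * (P.K : ℝ) ^ 6 * P.lam) := by
              gcongr
          _ = (800000 * (L : ℝ) ^ 2 * (P.K : ℝ) ^ 6) / P.lam := by
              field_simp
              ring
          _ ≤ 1 := by rw [div_le_one (by linarith)]; exact hl
  obtain ⟨σ, S, -, h2, h3, -, h5⟩ := hind P.N le_rfl
  have hup := EA_le hP hF (by linarith : P.cost σ ≤ 2) _ (hP.tau_pos (P.N - P.N))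
  have hS : S ≤ 400000 * (L : ℝ) ^ 2 * (P.K : ℝ) ^ 6 * P.lam := by
    have h := h3.trans hup
    unfold g0 at h
    rw [div_div, one_div, inv_mul_le_iff₀ (by positivity)] at h
    linarith
  have hN : (400000 : ℝ) * (L : ℝ) ^ 2 * (P.K : ℝ) ^ 6 * P.lam * (P.lam : ℝ) ^ (2 * P.m) < P.N := by
    exact_mod_cast hP.hN
  have h6 : (P.N : ℝ) * (1 / (P.lam : ℝ) ^ P.m) ^ 2 = P.N / (P.lam : ℝ) ^ (2 * P.m) := by
    rw [mul_comm 2 P.m, pow_mul]
    field_simp
  rw [h6, div_le_iff₀ (by positivity)] at h2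
  have hp : (0 : ℝ) < (P.lam : ℝ) ^ (2 * P.m) := by positivity
  nlinarith

end

theorem notShadowed (hP : P.Good L) : NotShadowed P.K L P.PhiOm := by
  intro E _ _ hNP f hup hlow
  have hR := hP.R_pos
  have : NeZero P.M := ⟨by unfold M; positivity⟩
  have : NeZero P.W := ⟨by unfold W; positivity⟩
  classical
  refine game hP hNP (F := fun σ g => if h : P.cost σ ≤ 2 then
    f ((g.1.val : ℤ), (fun c => ((g.2 c).val : ℤ)), ⟨σ, h⟩) else 0) ⟨?_, ?_⟩
  · intro σ σ' h h' g g'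
    simp only [dif_pos h, dif_pos h']
    exact hup _ _
  · intro σ σ' h h' g g' i
    simp only [dif_pos h, dif_pos h']
    exact hlow ((g.1.val : ℤ), (fun c => ((g.2 c).val : ℤ)), ⟨σ, h⟩)
      ((g'.1.val : ℤ), (fun c => ((g'.2 c).val : ℤ)), ⟨σ', h'⟩) i

end Par

end Crest.Agent.R254
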