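import Crest.Agent.R254.Defs

/-!
# Gluing the finite towers into one compact set
-/

set_option autoImplicit false

universe u v

namespace Crest.Agent.R254

open Crest.GeometryTopology Metric Set

lemma glue_compact {B : Type*} [PseudoMetricSpace B] (z : B) (Y : ℕ → Set B)
    (hY : ∀ m, (Y m).Finite) (h : ∀ η > 0, ∃ M, ∀ m, M ≤ m → Y m ⊆ ball z η) :
    IsCompact (insert z (⋃ m, Y m)) := by
  classical
  refine isCompact_of_finite_subcover fun {ι} U hU hc => ?_
  obtain ⟨i0, hi0⟩ := mem_iUnion.1 (hc (mem_insert _ _))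
  obtain ⟨η, hη, hb⟩ := Metric.isOpen_iff.1 (hU i0) z hi0
  obtain ⟨M, hM⟩ := h η hη
  have hF : (⋃ m ∈ Finset.range M, Y m).Finite :=
    Set.Finite.biUnion (Finset.range M).finite_toSet fun m _ => hY m
  obtain ⟨t, ht⟩ := hF.isCompact.elim_finite_subcover U hU (by
    intro y hy
    simp only [mem_iUnion] at hy
    obtain ⟨m, _, hm⟩ := hy
    exact hc (mem_insert_of_mem _ (mem_iUnion.2 ⟨m, hm⟩)))
  refine ⟨insert i0 t, ?_⟩
  rintro y (rfl | hy)
  · exact mem_biUnion (Finset.mem_insert_self _ _) hi0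
  · obtain ⟨m, hm⟩ := mem_iUnion.1 hy
    by_cases hmM : M ≤ m
    · exact mem_biUnion (Finset.mem_insert_self _ _) (hb (hM m hmM hm))
    · have := ht (mem_biUnion (Finset.mem_range.2 (not_le.1 hmM)) hm)
      simp only [mem_iUnion] at this ⊢
      obtain ⟨i, hi, hy⟩ := this
      exact ⟨i, Finset.mem_insert_of_mem hi, hy⟩

lemma glue_reps {Ω X Lb : Type*} [Fintype Lb] [PseudoMetricSpace X] (p : Ω → X) (S : Set Ω)
    (lab : Ω → Lb) (r : ℝ) (h : ∀ ω ∈ S, ∀ ω' ∈ S, lab ω = lab ω' → dist (p ω) (p ω') ≤ r) :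
    ∃ C : Finset X, (C : Set X) ⊆ range p ∧ C.card ≤ Fintype.card Lb ∧
      ∀ ω ∈ S, ∃ c ∈ C, dist (p ω) c ≤ r := by
  classical
  obtain ⟨s, hs, hb⟩ := Set.exists_subset_bijOn S lab
  have hfin : s.Finite := Set.Finite.of_finite_image (Set.toFinite _) hb.injOn
  refine ⟨hfin.toFinset.image p, ?_, ?_, ?_⟩
  · intro y hy
    simp only [Finset.coe_image, mem_image] at hy
    obtain ⟨ω, _, rfl⟩ := hy
    exact mem_range_self _
  · refine Finset.card_image_le.trans ?_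
    exact Finset.card_le_card_of_injOn lab (fun _ _ => Finset.mem_univ _)
      (by simpa using hb.injOn)
  · intro ω hω
    obtain ⟨ω', h1, h2⟩ := hb.surjOn (mem_image_of_mem lab hω)
    exact ⟨p ω', Finset.mem_image_of_mem _ (by simpa using h1), h ω hω ω' (hs h1) h2.symm⟩

lemma glue_two (A : Set ℕ) (h : ∀ a ∈ A, ∀ b ∈ A, ∀ c ∈ A, a < b → b < c → False) :
    ∃ m₁ m₂, ∀ a ∈ A, a = m₁ ∨ a = m₂ := by
  refine ⟨sInf A, sInf (A \ {sInf A}), fun a ha => ?_⟩
  by_contra hn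
  push Not at hn
  have h1 : sInf A ∈ A := Nat.sInf_mem ⟨a, ha⟩
  have ha' : a ∈ A \ {sInf A} := ⟨ha, hn.1⟩
  have h2 : sInf (A \ {sInf A}) ∈ A \ {sInf A} := Nat.sInf_mem ⟨a, ha'⟩
  exact h _ h1 _ h2.1 a ha (lt_of_le_of_ne (Nat.sInf_le h2.1) (Ne.symm h2.2))
    (lt_of_le_of_ne (Nat.sInf_le ha') (Ne.symm hn.2))

lemma glue_noPack (E : Type) [NormedAddCommGroup E] [NormedSpace ℝ E] [ProperSpace E] (D : ℝ) :
    ∃ K : ℕ, 1 ≤ K ∧ NoPack E K D := by
  classical
  obtain ⟨t, ht, hc⟩ := Metric.totallyBounded_iff.1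
    (isCompact_closedBall (0 : E) |D|).totallyBounded (1 / 3) (by norm_num)
  refine ⟨ht.toFinset.card + 1, by omega, fun p ρ hρ hp => ?_⟩
  let q : Fin (ht.toFinset.card + 1) → E := fun a => ρ⁻¹ • (p a - p 0)
  have hq : ∀ a b, dist (q a) (q b) = ρ⁻¹ * dist (p a) (p b) := by
    intro a b
    rw [dist_eq_norm, dist_eq_norm, ← smul_sub, norm_smul, Real.norm_eq_abs,
      abs_of_pos (inv_pos.2 hρ)]
    congr 2
    abel
  have hq0 : q 0 = 0 := by simp [q]
  have hm : ∀ a, ∃ c ∈ ht.toFinset, q a ∈ ball c (1 / 3) := by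
    intro a
    have : q a ∈ closedBall (0 : E) |D| := by
      rw [mem_closedBall, ← hq0]
      by_cases ha : a = 0
      · rw [ha, dist_self]; exact abs_nonneg _
      · rw [hq, inv_mul_le_iff₀ hρ]
        have := (hp a 0 ha).2
        have h2 := mul_le_mul_of_nonneg_right (le_abs_self D) hρ.le
        linarith
    simpa using hc this
  choose c hc1 hc2 using hm
  obtain ⟨a, -, b, -, hab, he⟩ := Finset.exists_ne_map_eq_of_card_lt_of_maps_to
    (s := Finset.univ) (t := ht.toFinset) (by simp) (f := c) (fun a _ => hc1 a)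
  have h1 := hc2 a
  have h2 := hc2 b
  rw [← he] at h2
  have h3 := dist_triangle_right (q a) (q b) (c a)
  rw [mem_ball] at h1 h2
  have h4 : 1 ≤ dist (q a) (q b) := by
    rw [hq, le_inv_mul_iff₀ hρ, mul_one]
    exact (hp a b hab).1
  linarith

theorem glue (Lb : Type) [Fintype Lb]
    (core : ∀ K L : ℕ, 1 ≤ K → 1 ≤ L → ∃ (ι Ω : Type) (_ : Fintype ι)
      (Φ : Ω → EuclideanSpace ℝ ι), (Set.range Φ).Finite ∧ LabelDoubling Lb Φ ∧ NotShadowed K L Φ)
    (B : Type u) [NormedAddCommGroup B] [NormedSpace ℝ B]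
    (hDR : ∀ (ι : Type) [Fintype ι], ∃ T : EuclideanSpace ℝ ι →ₗ[ℝ] B,
      (∀ a, ‖T a‖ ≤ ‖a‖) ∧ ∀ a i, |a i| ≤ 2 * ‖T a‖) :
    ∃ K : Set B, IsCompact K ∧ DoublingConstLE K (2 * Fintype.card Lb + 1) ∧
      ∀ (Y : Type v) [NormedAddCommGroup Y] [NormedSpace ℝ Y] [FiniteDimensional ℝ Y]
        (f : K → Y) (c C : NNReal), ¬ (LipschitzWith C f ∧ AntilipschitzWith c f) := by
  classical
  obtain ⟨e, he⟩ : ∃ e : B, ‖e‖ = 1 := by
    obtain ⟨T, -, hT⟩ := hDR Unit
    have h := hT (EuclideanSpace.single () 1) ()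
    have h0 : ‖T (EuclideanSpace.single () 1)‖ ≠ 0 := by
      intro h0
      rw [h0] at h
      norm_num at h
    exact ⟨‖T (EuclideanSpace.single () 1)‖⁻¹ • T (EuclideanSpace.single () 1), by
      rw [norm_smul, norm_inv, norm_norm, inv_mul_cancel₀ h0]⟩
  have core' : ∀ m : ℕ, ∃ (ι Ω : Type) (_ : Fintype ι) (Φ : Ω → EuclideanSpace ℝ ι),
      (Set.range Φ).Finite ∧ LabelDoubling Lb Φ ∧
        NotShadowed ((Nat.unpair m).1 + 1) ((Nat.unpair m).2 + 1) Φ :=
    fun m => core _ _ (by omega) (by omega)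
  choose ι Ω inst Φ hfin hlab hns using core'
  have hDR' : ∀ m, ∃ T : EuclideanSpace ℝ (ι m) →ₗ[ℝ] B,
      (∀ a, ‖T a‖ ≤ ‖a‖) ∧ ∀ a i, |a i| ≤ 2 * ‖T a‖ := fun m => hDR (ι m)
  choose T hT1 hT2 using hDR'
  have hD : ∀ m, ∃ D : ℝ, 0 < D ∧ ∀ ω, ‖Φ m ω‖ ≤ D := by
    intro m
    obtain ⟨D, hD0, hD⟩ := (hfin m).isBounded.exists_pos_norm_le
    exact ⟨D, hD0, fun ω => hD _ (mem_range_self _)⟩
  choose D hD0 hD using hD
  let δ : ℕ → ℝ := fun m => (1 / 100) ^ m
  have hδ : ∀ m, 0 < δ m := fun m => by positivity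
  have hδlt : ∀ a b, a < b → 100 * δ b ≤ δ a := by
    intro a b hab
    have h1 : δ b ≤ δ (a + 1) := pow_le_pow_of_le_one (by norm_num) (by norm_num) hab
    have h2 : δ (a + 1) = δ a * (1 / 100) := pow_succ _ _
    linarith
  let lam : ℕ → ℝ := fun m => δ m / (10 * D m)
  have hlam : ∀ m, 0 < lam m := fun m => div_pos (hδ m) (by have := hD0 m; positivity)
  let pt : ∀ m, Ω m → B := fun m ω => δ m • e + lam m • T m (Φ m ω)
  have hpt : ∀ m ω, ‖pt m ω - δ m • e‖ ≤ δ m / 10 := by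
    intro m ω
    have : pt m ω - δ m • e = lam m • T m (Φ m ω) := by simp [pt]
    rw [this, norm_smul, Real.norm_eq_abs, abs_of_pos (hlam m)]
    refine (mul_le_mul_of_nonneg_left ((hT1 m _).trans (hD m ω)) (hlam m).le).trans_eq ?_
    have := hD0 m
    simp only [lam]
    field_simp
  have hne : ∀ m, ‖δ m • e‖ = δ m := fun m => by
    rw [norm_smul, he, mul_one, Real.norm_eq_abs, abs_of_pos (hδ m)]
  have hup : ∀ m ω, ‖pt m ω‖ ≤ 11 / 10 * δ m := by
    intro m ω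
    have h1 := norm_sub_norm_le (pt m ω) (δ m • e)
    have := hpt m ω
    rw [hne] at h1
    linarith
  have hlo : ∀ m ω, 9 / 10 * δ m ≤ ‖pt m ω‖ := by
    intro m ω
    have h1 := norm_sub_norm_le (δ m • e) (pt m ω)
    have := hpt m ω
    rw [hne, norm_sub_rev] at h1
    linarith
  have hdist : ∀ m ω ω', dist (pt m ω) (pt m ω') = lam m * ‖T m (Φ m ω - Φ m ω')‖ := by
    intro m ω ω'
    have : pt m ω - pt m ω' = lam m • T m (Φ m ω - Φ m ω') := by
      simp only [pt, map_sub, smul_sub]; abel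
    rw [dist_eq_norm, this, norm_smul, Real.norm_eq_abs, abs_of_pos (hlam m)]
  have hmem : ∀ m ω, pt m ω ∈ insert (0 : B) (⋃ m, range (pt m)) :=
    fun m ω => mem_insert_of_mem _ (mem_iUnion.2 ⟨m, mem_range_self _⟩)
  refine ⟨insert 0 (⋃ m, range (pt m)), ?_, ?_, ?_⟩
  · refine glue_compact 0 _ (fun m => ?_) fun η hη => ?_
    · have : range (pt m) = (fun x => δ m • e + lam m • T m x) '' range (Φ m) := by
        rw [← range_comp]; rfl
      rw [this]
      exact (hfin m).image _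
    · obtain ⟨M, hM⟩ := exists_pow_lt_of_lt_one (show 0 < η / 2 by positivity)
        (show (1 / 100 : ℝ) < 1 by norm_num)
      refine ⟨M, fun m hm => ?_⟩
      rintro _ ⟨ω, rfl⟩
      have h1 : δ m ≤ (1 / 100) ^ M := pow_le_pow_of_le_one (by norm_num) (by norm_num) hm
      have := hup m ω
      rw [mem_ball_zero_iff]
      linarith
  · intro x _ r hr
    have piece : ∀ m, ∃ C : Finset B, (C : Set B) ⊆ range (pt m) ∧ C.card ≤ Fintype.card Lb ∧
        ∀ ω ∈ {ω | pt m ω ∈ closedBall x (2 * r)}, ∃ c ∈ C, dist (pt m ω) c ≤ r := by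
      intro m
      obtain ⟨lab, hl⟩ := hlab m (r / lam m) (div_pos hr (hlam m))
      refine glue_reps (pt m) _ lab r fun ω hω ω' hω' hll => ?_
      have h1 : dist (pt m ω) (pt m ω') ≤ 4 * r := by
        have := dist_triangle_right (pt m ω) (pt m ω') x
        simp only [mem_setOf_eq, mem_closedBall] at hω hω'
        linarith
      rw [hdist] at h1 ⊢
      have h2 : ‖T m (Φ m ω - Φ m ω')‖ ≤ 4 * (r / lam m) := by
        rw [← mul_div_assoc, le_div_iff₀ (hlam m)]; linarith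
      have h3 := hl ω ω' (fun i => by
        have := hT2 m (Φ m ω - Φ m ω') i
        rw [PiLp.sub_apply] at this
        linarith) hll
      have h4 := (hT1 m _).trans h3
      rw [le_div_iff₀ (hlam m)] at h4
      linarith
    choose C hC1 hC2 hC3 using piece
    obtain ⟨m₁, m₂, hm⟩ := glue_two
      {m | r < 11 / 10 * δ m ∧ ∃ ω, pt m ω ∈ closedBall x (2 * r)} (by
        rintro a ⟨-, ω, hω⟩ b ⟨-, ω', hω'⟩ c ⟨hc, -⟩ hab hbc
        have h1 := hδlt a b hab
        have h2 := hδlt b c hbc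
        have h3 := dist_triangle_right (pt a ω) (pt b ω') x
        rw [mem_closedBall] at hω hω'
        have h4 := norm_sub_norm_le (pt a ω) (pt b ω')
        rw [← dist_eq_norm] at h4
        have := hlo a ω
        have := hup b ω'
        linarith)
    refine ⟨insert 0 (C m₁ ∪ C m₂), ?_, ?_, ?_⟩
    · intro y hy
      simp only [Finset.coe_insert, Finset.coe_union] at hy
      rcases hy with rfl | hy | hy
      · exact mem_insert _ _
      · obtain ⟨ω, rfl⟩ := hC1 _ hy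
        exact hmem _ _
      · obtain ⟨ω, rfl⟩ := hC1 _ hy
        exact hmem _ _
    · have h1 := Finset.card_insert_le (0 : B) (C m₁ ∪ C m₂)
      have h2 := Finset.card_union_le (C m₁) (C m₂)
      have := hC2 m₁
      have := hC2 m₂
      omega
    · rintro y ⟨hy, hyx⟩
      simp only [mem_iUnion]
      rcases hy with rfl | hy
      · exact ⟨0, Finset.mem_insert_self _ _, mem_closedBall_self hr.le⟩
      · obtain ⟨m, ω, rfl⟩ := mem_iUnion.1 hy
        by_cases hsm : r < 11 / 10 * δ m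
        · obtain ⟨c, hc, hcd⟩ := hC3 m ω hyx
          refine ⟨c, Finset.mem_insert_of_mem ?_, hcd⟩
          rcases hm m ⟨hsm, ω, hyx⟩ with rfl | rfl
          · exact Finset.mem_union_left _ hc
          · exact Finset.mem_union_right _ hc
        · refine ⟨0, Finset.mem_insert_self _ _, ?_⟩
          rw [mem_closedBall_zero_iff]
          exact (hup m ω).trans (not_lt.1 hsm)
  · rintro Y _ _ _ f c C ⟨hf1, hf2⟩
    let φ := toEuclidean (E := Y)
    obtain ⟨C', hg1⟩ : ∃ C', LipschitzWith C' (φ ∘ f) := ⟨_, φ.lipschitz.comp hf1⟩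
    obtain ⟨c', hg2⟩ : ∃ c', AntilipschitzWith c' (φ ∘ f) := ⟨_, φ.antilipschitz.comp hf2⟩
    generalize φ ∘ f = g at hg1 hg2
    obtain ⟨L, hL⟩ := exists_nat_ge (2 * (c' : ℝ) * C')
    obtain ⟨K, hK1, hK⟩ := glue_noPack (EuclideanSpace ℝ (Fin (Module.finrank ℝ Y)))
      (16 * ((L + 1 : ℕ) : ℝ))
    obtain ⟨K, rfl⟩ : ∃ K', K = K' + 1 := ⟨K - 1, by omega⟩
    have hn := hns (Nat.pair K L)
    rw [Nat.unpair_pair] at hn
    generalize Nat.pair K L = m at hn
    have hnorm : ∀ ω ω', ‖(2 * (c' : ℝ) / lam m) • g ⟨pt m ω, hmem m ω⟩ -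
        (2 * (c' : ℝ) / lam m) • g ⟨pt m ω', hmem m ω'⟩‖ =
        (2 * (c' : ℝ) / lam m) * dist (g ⟨pt m ω, hmem m ω⟩) (g ⟨pt m ω', hmem m ω'⟩) := by
      intro ω ω'
      have := hlam m
      rw [← smul_sub, norm_smul, dist_eq_norm, Real.norm_eq_abs, abs_of_nonneg (by positivity)]
    refine hn _ hK (fun ω => (2 * (c' : ℝ) / lam m) • g ⟨pt m ω, hmem m ω⟩) ?_ ?_
    · intro ω ω'
      have hl := hlam m
      have h1 := hg1.dist_le_mul ⟨pt m ω, hmem m ω⟩ ⟨pt m ω', hmem m ω'⟩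
      rw [Subtype.dist_eq, hdist] at h1
      rw [hnorm]
      refine (mul_le_mul_of_nonneg_left h1 (by positivity)).trans ?_
      have h2 : 2 * (c' : ℝ) / lam m * (C' * (lam m * ‖T m (Φ m ω - Φ m ω')‖)) =
          2 * (c' : ℝ) * C' * ‖T m (Φ m ω - Φ m ω')‖ := by field_simp
      rw [h2]
      refine mul_le_mul ?_ (hT1 m _) (norm_nonneg _) (by positivity)
      push_cast
      linarith
    · intro ω ω' i
      have hl := hlam m
      have h1 := hg2.le_mul_dist ⟨pt m ω, hmem m ω⟩ ⟨pt m ω', hmem m ω'⟩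
      rw [Subtype.dist_eq, hdist] at h1
      rw [hnorm]
      have h2 := hT2 m (Φ m ω - Φ m ω') i
      rw [PiLp.sub_apply] at h2
      refine h2.trans ?_
      rw [div_mul_eq_mul_div, le_div_iff₀ hl]
      linarith

end Crest.Agent.R254
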