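import Crest.Agent.R254.Energy

/-!
# The key inequality
-/

set_option autoImplicit false

namespace Crest.Agent.R254

open Finset

variable {G E : Type*} [AddCommGroup G] [Fintype G] [NormedAddCommGroup E]

/-- A good base point for the average slope. -/
lemma Key_exists_j [InnerProductSpace ℝ E] {K : ℕ} (hK : 1 ≤ K) (H : G → E) (α β : G) (Q : ℕ)
    (hQ : 2 * K ≤ Q) :
    ∃ j : ℕ, ∑ g, ∑ a ∈ range K, ∑ b ∈ range K,
      ‖(H (g + a • α + b • β + α) - H (g + a • α + b • β)) -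
        (1 / (Q : ℝ)) • (H (g - j • α + b • β + Q • α) - H (g - j • α + b • β))‖ ^ 2 ≤
      2 * (K : ℝ) ^ 2 * (En H α - En H (Q • α) / (Q : ℝ) ^ 2) := by
  set φ : ℕ → ℝ := fun j => ∑ g, ‖(H (g + j • α + α) - H (g + j • α)) -
        (1 / (Q : ℝ)) • (H (g + Q • α) - H g)‖ ^ 2 with hφ
  have hφ0 : ∀ j, 0 ≤ φ j := fun j => Finset.sum_nonneg fun g _ => sq_nonneg _
  have hQ0 : 0 < Q := by omega
  have hQr : (0 : ℝ) < Q := by exact_mod_cast hQ0
  have hvar : ∑ j ∈ range Q, φ j = Q * En H α - En H (Q • α) / Q := En_var H α Q hQ0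
  set A : ℝ := En H α - En H (Q • α) / (Q : ℝ) ^ 2 with hA
  have hvar' : ∑ j ∈ range Q, φ j = Q * A := by
    rw [hvar, hA]; field_simp
  have hA0 : 0 ≤ A := by
    have : 0 ≤ (Q : ℝ) * A := hvar' ▸ Finset.sum_nonneg fun j _ => hφ0 j
    exact nonneg_of_mul_nonneg_right this hQr |> fun h => by
      by_contra hc
      push Not at hc
      nlinarith
  have hshift : ∀ j : ℕ, ∑ g, ∑ a ∈ range K, ∑ b ∈ range K,
      ‖(H (g + a • α + b • β + α) - H (g + a • α + b • β)) -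
        (1 / (Q : ℝ)) • (H (g - j • α + b • β + Q • α) - H (g - j • α + b • β))‖ ^ 2 =
      K * ∑ a ∈ range K, φ (j + a) := by
    intro j
    rw [Finset.sum_comm, Finset.mul_sum]
    refine Finset.sum_congr rfl fun a _ => ?_
    rw [Finset.sum_comm]
    have : ∀ b ∈ range K, ∑ g, ‖(H (g + a • α + b • β + α) - H (g + a • α + b • β)) -
        (1 / (Q : ℝ)) • (H (g - j • α + b • β + Q • α) - H (g - j • α + b • β))‖ ^ 2 =
        φ (j + a) := by
      intro b _
      rw [hφ]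
      refine (Equiv.sum_comp (Equiv.addRight (j • α - b • β)) _).symm.trans ?_
      refine Finset.sum_congr rfl fun g _ => ?_
      simp only [Equiv.coe_addRight]
      have e1 : g + (j • α - b • β) + a • α + b • β = g + (j + a) • α := by
        rw [add_nsmul]; abel
      have e2 : g + (j • α - b • β) - j • α + b • β = g := by abel
      rw [e1, e2]
    rw [Finset.sum_congr rfl this, Finset.sum_const, Finset.card_range, nsmul_eq_mul]
  have hsum : ∑ j ∈ range (Q - K), ((K : ℝ) * ∑ a ∈ range K, φ (j + a)) ≤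
      ∑ j ∈ range (Q - K), 2 * (K : ℝ) ^ 2 * A := by
    rw [← Finset.mul_sum, Finset.sum_comm]
    have h1 : ∀ a ∈ range K, ∑ j ∈ range (Q - K), φ (j + a) ≤ Q * A := by
      intro a ha
      rw [← hvar', ← Finset.sum_image (s := range (Q - K)) (g := fun j => j + a) (f := φ)
        (fun x _ y _ h => by simpa using h)]
      refine Finset.sum_le_sum_of_subset_of_nonneg (fun x hx => ?_) fun i _ _ => hφ0 i
      obtain ⟨j, hj, rfl⟩ := Finset.mem_image.mp hx
      rw [Finset.mem_range] at *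
      omega
    have h2 := Finset.sum_le_sum h1
    rw [Finset.sum_const, Finset.card_range, nsmul_eq_mul] at h2
    rw [Finset.sum_const, Finset.card_range, nsmul_eq_mul, Nat.cast_sub (by omega)]
    have hKr : (0 : ℝ) ≤ K := Nat.cast_nonneg K
    have hQK : (2 : ℝ) * K ≤ Q := by exact_mod_cast hQ
    refine (mul_le_mul_of_nonneg_left h2 hKr).trans ?_
    have h3 : 0 ≤ (K : ℝ) ^ 2 * A := by positivity
    nlinarith
  obtain ⟨j, -, hj⟩ := Finset.exists_le_of_sum_le (s := range (Q - K))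
    ⟨0, Finset.mem_range.mpr (by omega)⟩ hsum
  exact ⟨j, (hshift j).trans_le hj⟩

omit [Fintype G] in
/-- Telescoping along the rows. -/
lemma Key_tele [InnerProductSpace ℝ E] {K : ℕ} (hK : 1 ≤ K) {r : ℝ} (hr : 0 < r) (H : G → E)
    (α β : G) (Q : ℕ) (hQ : 2 * K ≤ Q)
    (hH : ∀ g, ∀ b < K, 200 * K * ‖H (g + b • β) - H g‖ ≤ Q * r) (g x : G)
    (hdev : ∀ a < K, ∀ b < K, ‖(H (g + a • α + b • β + α) - H (g + a • α + b • β)) -
        (1 / (Q : ℝ)) • (H (x + b • β + Q • α) - H (x + b • β))‖ ≤ r / (100 * K)) :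
    ∀ a < K, ∀ b < K, ‖H (g + a • α + b • β) - H (g + b • β) -
      (a : ℝ) • ((1 / (Q : ℝ)) • (H (x + Q • α) - H x))‖ ≤ r / 50 := by
  intro a ha b hb
  have hQ0 : 0 < Q := by omega
  have hQr : (0 : ℝ) < Q := by exact_mod_cast hQ0
  have hKr : (0 : ℝ) < K := by exact_mod_cast hK
  set T : E := (1 / (Q : ℝ)) • (H (x + Q • α) - H x) with hT
  have hTb : ‖(1 / (Q : ℝ)) • (H (x + b • β + Q • α) - H (x + b • β)) - T‖ ≤ r / (100 * K) := by
    rw [hT, ← smul_sub, norm_smul, Real.norm_eq_abs, abs_of_pos (by positivity)]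
    have e : H (x + b • β + Q • α) - H (x + b • β) - (H (x + Q • α) - H x) =
        (H (x + Q • α + b • β) - H (x + Q • α)) - (H (x + b • β) - H x) := by
      rw [add_right_comm x (b • β)]; abel
    rw [e]
    have h1 := hH (x + Q • α) b hb
    have h2 := hH x b hb
    have h3 := norm_sub_le (H (x + Q • α + b • β) - H (x + Q • α)) (H (x + b • β) - H x)
    rw [one_div, inv_mul_le_iff₀ hQr, ← mul_div_assoc, le_div_iff₀ (by positivity)]
    nlinarith
  have key : ∀ n ≤ K, ‖H (g + n • α + b • β) - H (g + b • β) - (n : ℝ) • T‖ ≤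
      n * (r / (50 * K)) := by
    intro n hn
    induction n with
    | zero => simp
    | succ n ih =>
      have ih' := ih (by omega)
      have h1 := hdev n (by omega) b hb
      have e : H (g + (n + 1) • α + b • β) - H (g + b • β) - ((n + 1 : ℕ) : ℝ) • T =
          (H (g + n • α + b • β) - H (g + b • β) - (n : ℝ) • T) +
          (((H (g + n • α + b • β + α) - H (g + n • α + b • β)) -
            (1 / (Q : ℝ)) • (H (x + b • β + Q • α) - H (x + b • β))) +
          ((1 / (Q : ℝ)) • (H (x + b • β + Q • α) - H (x + b • β)) - T)) := by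
        have : g + (n + 1) • α + b • β = g + n • α + b • β + α := by
          rw [succ_nsmul]; abel
        rw [this]
        push_cast
        rw [add_smul, one_smul]
        abel
      rw [e]
      refine (norm_add_le _ _).trans ?_
      have h2 := norm_add_le ((H (g + n • α + b • β + α) - H (g + n • α + b • β)) -
            (1 / (Q : ℝ)) • (H (x + b • β + Q • α) - H (x + b • β)))
          ((1 / (Q : ℝ)) • (H (x + b • β + Q • α) - H (x + b • β)) - T)
      have e2 : r / (100 * K) + r / (100 * K) = r / (50 * K) := by field_simp; ring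
      push_cast
      linarith
  refine (key a ha.le).trans ?_
  have haK : (a : ℝ) ≤ K := by exact_mod_cast ha.le
  calc (a : ℝ) * (r / (50 * K)) ≤ K * (r / (50 * K)) :=
        mul_le_mul_of_nonneg_right haK (by positivity)
    _ = r / 50 := by field_simp

omit [Fintype G] in
/-- The pointwise claim. -/
lemma Key_point [InnerProductSpace ℝ E] {K : ℕ} {L r : ℝ} (hNP : NoPack E K (16 * L))
    (hK : 1 ≤ K) (hL : 1 ≤ L) (hr : 0 < r) (H F : G → E) (α β : G) (Q₁ Q₂ : ℕ)
    (hQ₁ : 2 * K ≤ Q₁) (hQ₂ : 2 * K ≤ Q₂) (g x y : G)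
    (hdiag : ∀ a < K, ‖H (g + a • α + a • β) - F (g + a • α + a • β)‖ ≤ r / 100)
    (hoff : ∀ a < K, ∀ b < K, a ≠ b →
      r / 2 ≤ ‖H (g + a • α + b • β) - F (g + a • α + b • β)‖)
    (hup : ∀ g, ‖H g - F g‖ ≤ 3 * L * r)
    (hH : ∀ g, ∀ b < K, 200 * K * ‖H (g + b • β) - H g‖ ≤ Q₁ * r)
    (hF : ∀ g, ∀ a < K, 200 * K * ‖F (g + a • α) - F g‖ ≤ Q₂ * r) :
    (r / (100 * K)) ^ 2 ≤
      ∑ a ∈ range K, ∑ b ∈ range K,
        ‖(H (g + a • α + b • β + α) - H (g + a • α + b • β)) -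
          (1 / (Q₁ : ℝ)) • (H (x + b • β + Q₁ • α) - H (x + b • β))‖ ^ 2 +
      ∑ b ∈ range K, ∑ a ∈ range K,
        ‖(F (g + b • β + a • α + β) - F (g + b • β + a • α)) -
          (1 / (Q₂ : ℝ)) • (F (y + a • α + Q₂ • β) - F (y + a • α))‖ ^ 2 := by
  have hKr : (0 : ℝ) < K := by exact_mod_cast hK
  by_contra hc
  push Not at hc
  have hsingle : ∀ (ψ : ℕ → ℕ → ℝ), (∀ a b, 0 ≤ ψ a b) → ∀ a < K, ∀ b < K,
      ψ a b ≤ ∑ a ∈ range K, ∑ b ∈ range K, ψ a b := by
    intro ψ hψ a ha b hb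
    calc ψ a b ≤ ∑ b ∈ range K, ψ a b :=
          Finset.single_le_sum (f := fun b => ψ a b) (fun b _ => hψ a b) (Finset.mem_range.mpr hb)
      _ ≤ _ := Finset.single_le_sum (f := fun a => ∑ b ∈ range K, ψ a b)
          (fun a _ => Finset.sum_nonneg fun b _ => hψ a b) (Finset.mem_range.mpr ha)
  have hS1 : 0 ≤ ∑ a ∈ range K, ∑ b ∈ range K,
        ‖(H (g + a • α + b • β + α) - H (g + a • α + b • β)) -
          (1 / (Q₁ : ℝ)) • (H (x + b • β + Q₁ • α) - H (x + b • β))‖ ^ 2 :=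
    Finset.sum_nonneg fun _ _ => Finset.sum_nonneg fun _ _ => sq_nonneg _
  have hS2 : 0 ≤ ∑ b ∈ range K, ∑ a ∈ range K,
        ‖(F (g + b • β + a • α + β) - F (g + b • β + a • α)) -
          (1 / (Q₂ : ℝ)) • (F (y + a • α + Q₂ • β) - F (y + a • α))‖ ^ 2 :=
    Finset.sum_nonneg fun _ _ => Finset.sum_nonneg fun _ _ => sq_nonneg _
  have hε : 0 ≤ r / (100 * K) := by positivity
  have h1 := Key_tele hK hr H α β Q₁ hQ₁ hH g x (fun a ha b hb => by
    have := hsingle (fun a b => ‖(H (g + a • α + b • β + α) - H (g + a • α + b • β)) -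
          (1 / (Q₁ : ℝ)) • (H (x + b • β + Q₁ • α) - H (x + b • β))‖ ^ 2)
      (fun _ _ => sq_nonneg _) a ha b hb
    exact (abs_le_of_sq_le_sq' (by linarith) hε).2)
  have h2 := Key_tele hK hr F β α Q₂ hQ₂ hF g y (fun b hb a ha => by
    have := hsingle (fun b a => ‖(F (g + b • β + a • α + β) - F (g + b • β + a • α)) -
          (1 / (Q₂ : ℝ)) • (F (y + a • α + Q₂ • β) - F (y + a • α))‖ ^ 2)
      (fun _ _ => sq_nonneg _) b hb a ha
    exact (abs_le_of_sq_le_sq' (by linarith) hε).2)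
  set T₁ : E := (1 / (Q₁ : ℝ)) • (H (x + Q₁ • α) - H x) with hT₁
  set T₂ : E := (1 / (Q₂ : ℝ)) • (F (y + Q₂ • β) - F y) with hT₂
  set p : ℕ → E := fun a => F (g + a • α) - (a : ℝ) • T₁ with hp
  set q : ℕ → E := fun b => H (g + b • β) - (b : ℝ) • T₂ with hq
  have herr : ∀ a < K, ∀ b < K,
      ‖(H (g + a • α + b • β) - F (g + a • α + b • β)) - (q b - p a)‖ ≤ r / 25 := by
    intro a ha b hb
    have e : (H (g + a • α + b • β) - F (g + a • α + b • β)) - (q b - p a) =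
        (H (g + a • α + b • β) - H (g + b • β) - (a : ℝ) • T₁) -
          (F (g + b • β + a • α) - F (g + a • α) - (b : ℝ) • T₂) := by
      rw [add_right_comm g (b • β)]
      simp only [hp, hq]
      abel
    rw [e]
    refine (norm_sub_le _ _).trans ?_
    have := h1 a ha b hb
    have := h2 b hb a ha
    linarith
  have hqp : ∀ a < K, ‖q a - p a‖ ≤ r / 20 := by
    intro a ha
    have h3 := herr a ha a ha
    have h4 := hdiag a ha
    have h5 := norm_sub_norm_le (q a - p a) (H (g + a • α + a • β) - F (g + a • α + a • β))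
    rw [norm_sub_rev] at h3
    linarith
  refine hNP (fun a => p a) (r / 4) (by positivity) fun b a hba => ?_
  have hab : (a : ℕ) ≠ b := fun h => hba (Fin.ext h).symm
  rw [dist_eq_norm]
  have h3 := herr a a.2 b b.2
  have h4 := hqp b b.2
  have h5 := hoff a a.2 b b.2 hab
  have h6 := hup (g + (a : ℕ) • α + (b : ℕ) • β)
  set D := H (g + (a : ℕ) • α + (b : ℕ) • β) - F (g + (a : ℕ) • α + (b : ℕ) • β) with hD
  have h7 : ‖D - (p b - p a)‖ ≤ r / 25 + r / 20 := by
    have e : D - (p b - p a) = (D - (q b - p a)) + (q b - p b) := by abel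
    rw [e]
    exact (norm_add_le _ _).trans (add_le_add h3 h4)
  have h8 := norm_sub_norm_le D (p b - p a)
  have h9 := norm_sub_norm_le (p b - p a) D
  rw [norm_sub_rev _ D] at h9
  have h10 : r ≤ L * r := le_mul_of_one_le_left hr.le hL
  constructor
  · linarith
  · linarith

/-- The key inequality: rows `H` and columns `F` cannot both be nearly affine. -/
theorem key_ineq [InnerProductSpace ℝ E] {K : ℕ} {L r : ℝ} (hNP : NoPack E K (16 * L))
    (hK : 1 ≤ K) (hL : 1 ≤ L) (hr : 0 < r) (H F : G → E) (α β : G) (Q₁ Q₂ : ℕ)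
    (hQ₁ : 2 * K ≤ Q₁) (hQ₂ : 2 * K ≤ Q₂) (Γ : Finset G)
    (hdiag : ∀ g ∈ Γ, ∀ a < K, ‖H (g + a • α + a • β) - F (g + a • α + a • β)‖ ≤ r / 100)
    (hoff : ∀ g ∈ Γ, ∀ a < K, ∀ b < K, a ≠ b →
      r / 2 ≤ ‖H (g + a • α + b • β) - F (g + a • α + b • β)‖)
    (hup : ∀ g, ‖H g - F g‖ ≤ 3 * L * r)
    (hH : ∀ g, ∀ b < K, 200 * K * ‖H (g + b • β) - H g‖ ≤ Q₁ * r)
    (hF : ∀ g, ∀ a < K, 200 * K * ‖F (g + a • α) - F g‖ ≤ Q₂ * r) :
    r ^ 2 * Γ.card / (20000 * (K : ℝ) ^ 4) ≤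
      (En H α - En H (Q₁ • α) / (Q₁ : ℝ) ^ 2) + (En F β - En F (Q₂ • β) / (Q₂ : ℝ) ^ 2) := by
  have hKr : (0 : ℝ) < K := by exact_mod_cast hK
  obtain ⟨j₁, hj₁⟩ := Key_exists_j hK H α β Q₁ hQ₁
  obtain ⟨j₂, hj₂⟩ := Key_exists_j hK F β α Q₂ hQ₂
  have h1 := Finset.sum_le_sum fun g (hg : g ∈ Γ) =>
    Key_point hNP hK hL hr H F α β Q₁ Q₂ hQ₁ hQ₂ g (g - j₁ • α) (g - j₂ • β) (hdiag g hg)
      (hoff g hg) hup hH hF
  have h2 := h1.trans (Finset.sum_le_sum_of_subset_of_nonneg (Finset.subset_univ Γ)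
    fun g _ _ => add_nonneg
      (Finset.sum_nonneg fun _ _ => Finset.sum_nonneg fun _ _ => sq_nonneg _)
      (Finset.sum_nonneg fun _ _ => Finset.sum_nonneg fun _ _ => sq_nonneg _))
  rw [Finset.sum_add_distrib, Finset.sum_const, nsmul_eq_mul] at h2
  have h3 := h2.trans (add_le_add hj₁ hj₂)
  rw [← mul_add] at h3
  rw [div_le_iff₀ (by positivity)]
  have e : r ^ 2 * Γ.card = (Γ.card * (r / (100 * K)) ^ 2) * (10000 * (K : ℝ) ^ 2) := by
    field_simp; ring
  rw [e]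
  refine (mul_le_mul_of_nonneg_right h3 (by positivity)).trans (le_of_eq ?_)
  ring

end Crest.Agent.R254
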